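import Vale.Agent.P354XA.Fr

/-!
The Kerr metric in ingoing coordinates is a smooth nondegenerate symmetric field on r > 0.
-/

open scoped ContDiff
open Set Filter Topology

noncomputable section

namespace Vale.Agent.P354YJ

open Vale.Agent.P354n (R4)
open Vale.Agent.P354I (X dT dP rnd Sg)
open Vale.Agent.P354R (Met)
open Vale.Agent.P354XE (xs pt rd gin dr dq kf eT)
open Vale.Agent.P354XA

variable {M a : ℝ} {p v w : R4}

theorem Sg_pos (a : ℝ) (h : 0 < rd p) : 0 < Sg a (rd p) (xs p) :=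
  (pow_pos h 2).trans_le (Sg_ge a p)

theorem open_rd : IsOpen {p : R4 | 0 < rd p} := isOpen_lt continuous_const rd_cont

theorem gin_symm (M a : ℝ) (p v w : R4) : gin M a p v w = gin M a p w v := by
  simp only [gin, rnd_eq, ip]
  ring

theorem gin_lin (M a : ℝ) (p v : R4) : IsLinearMap ℝ (gin M a p v) :=
  ⟨fun b c => by
    simp only [gin, kf, dr_eq, dq_eq, rnd_eq, ip, Prod.fst_add, Prod.snd_add]
    ring, fun s b => by
    simp only [gin, kf, dr_eq, dq_eq, rnd_eq, ip, Prod.smul_fst, Prod.smul_snd, smul_eq_mul]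
    ring⟩

/-- The product with the ingoing principal null field, and with d/dt. -/
theorem gin_n0 (h : rd p ≠ 0) (v : R4) :
    gin M a p v (1, -(rd p)⁻¹ • p.2) = -kf a p v := by
  have k : ip p (1, -(rd p)⁻¹ • p.2) = -rd p := by
    have := rd_sq p
    simp only [ip, Prod.smul_fst, Prod.smul_snd, smul_eq_mul] at this ⊢
    field_simp
    linear_combination this
  have k1 : dr p (1, -(rd p)⁻¹ • p.2) = -1 := by rw [dr_eq, k, neg_div, div_self h]
  have k2 : dq p (1, -(rd p)⁻¹ • p.2) = 0 := by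
    simp only [dq_eq, Prod.smul_fst, Prod.smul_snd, smul_eq_mul]
    ring
  have k3 : rnd (xs p) (xs v) (xs (1, -(rd p)⁻¹ • p.2)) = 0 := by
    rw [rnd_eq, k]
    simp only [ip, Prod.smul_fst, Prod.smul_snd, smul_eq_mul]
    field_simp
    ring
  simp only [gin, kf, k1, k2, k3]
  ring

theorem gin_eT (M a : ℝ) (p v : R4) :
    gin M a p v eT = -v.1 + 2 * M * rd p / Sg a (rd p) (xs p) * kf a p v := by
  simp [gin, kf, dr_eq, dq_eq, rnd_eq, ip, eT]

theorem gin_nondeg (h : 0 < rd p) (hv : ∀ w, gin M a p v w = 0) : v = 0 := by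
  have k1 : kf a p v = 0 := neg_eq_zero.1 ((gin_n0 h.ne' v).symm.trans (hv _))
  have k2 : v.1 = 0 := by
    have := hv eT
    rw [gin_eT, k1] at this
    linarith
  have k3 : dr p v = a * dq p v := by rw [kf, k2] at k1; linarith
  have k4 : rnd (xs p) (xs v) (xs v) = 0 := by
    have := hv v
    rw [gin, k1, k2, k3] at this
    exact (mul_eq_zero.1 (by linear_combination this)).resolve_left (Sg_pos a h).ne'
  have k5 : dq p v = 0 := by
    have := (rnd_nonneg h.ne' v).2
    rw [k4] at this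
    exact pow_eq_zero_iff two_ne_zero |>.1 (le_antisymm this (sq_nonneg _))
  have k6 := ip_split h.ne' v
  rw [k3, k4, k5, ip] at k6
  have s1 := mul_self_nonneg v.2.1
  have s2 := mul_self_nonneg v.2.2.1
  have s3 := mul_self_nonneg v.2.2.2
  exact Prod.ext k2 (Prod.ext (mul_self_eq_zero.1 (by linarith))
    (Prod.ext (mul_self_eq_zero.1 (by linarith)) (mul_self_eq_zero.1 (by linarith))))

theorem dr_cd (h : rd p ≠ 0) (v : R4) : ContDiffAt ℝ ∞ (fun y => dr y v) p := by
  simp only [dr_eq]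
  exact ContDiffAt.div (by unfold ip; fun_prop) (rd_cd h) h

theorem dq_cd (h : rd p ≠ 0) (v : R4) : ContDiffAt ℝ ∞ (fun y => dq y v) p := by
  simp only [dq_eq]
  exact ContDiffAt.div (by fun_prop) ((rd_cd h).pow 2) (pow_ne_zero 2 h)

theorem kf_cd (h : rd p ≠ 0) (a : ℝ) (v : R4) : ContDiffAt ℝ ∞ (fun y => kf a y v) p :=
  (contDiffAt_const.add (dr_cd h v)).sub (contDiffAt_const.mul (dq_cd h v))

theorem rnd_cd (h : rd p ≠ 0) (v w : R4) :
    ContDiffAt ℝ ∞ (fun y => rnd (xs y) (xs v) (xs w)) p := by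
  simp only [rnd_eq]
  have k : ∀ v, ContDiffAt ℝ ∞ (fun y => ip y v / rd y ^ 2) p := fun v =>
    ContDiffAt.div (by unfold ip; fun_prop) ((rd_cd h).pow 2) (pow_ne_zero 2 h)
  exact (contDiffAt_const.div ((rd_cd h).pow 2) (pow_ne_zero 2 h)).sub ((k v).mul (k w))

theorem Sg_cd (h : rd p ≠ 0) (a : ℝ) : ContDiffAt ℝ ∞ (fun y => Sg a (rd y) (xs y)) p := by
  simp only [Sg_eq]
  exact ((rd_cd h).pow 2).add (contDiffAt_const.mul
    (ContDiffAt.div (by fun_prop) ((rd_cd h).pow 2) (pow_ne_zero 2 h)))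

theorem gin_cd (h : 0 < rd p) (M a : ℝ) (v w : R4) :
    ContDiffAt ℝ ∞ (fun y => gin M a y v w) p := by
  have k := h.ne'
  exact ((((contDiffAt_const.add ((dr_cd k v).mul (dr_cd k w))).sub (contDiffAt_const.mul
    (((dr_cd k v).mul (dq_cd k w)).add ((dq_cd k v).mul (dr_cd k w))))).add
    ((Sg_cd k a).mul (rnd_cd k v w))).add
    (contDiffAt_const.mul ((dq_cd k v).mul (dq_cd k w)))).add
    (((contDiffAt_const.mul (rd_cd k)).div (Sg_cd k a) (Sg_pos a h).ne').mul
      ((kf_cd k a v).mul (kf_cd k a w)))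

/-- The Kerr metric is a metric on every subset of r > 0. -/
theorem gin_met' (M a : ℝ) {D : Set R4} (hD : ∀ p ∈ D, 0 < rd p) : Met (gin M a) D :=
  ⟨fun y _ v => gin_lin M a y v, fun y _ v w => gin_symm M a y v w,
    fun y hy _ hv => gin_nondeg (hD y hy) hv,
    fun v w y hy => (gin_cd (hD y hy) M a v w).contDiffWithinAt⟩

theorem gin_met (M a : ℝ) : Met (gin M a) {p | 0 < rd p} := gin_met' M a fun _ h => h

end Vale.Agent.P354YJ
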