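import Vale.Agent.P354YM.Props
import Vale.Agent.P354YW.Jk
import Vale.Agent.P354YR.Vac
import Vale.Agent.P354YO.Ob
import Vale.Agent.P354XM.Kin

/-!
The position of the slices: RAD and CHAIN.
-/

open scoped ContDiff
open Set Filter Topology Metric Matrix

noncomputable section

namespace Vale.Agent.P354YJ

open Vale.Agent.P354n (R4)
open Vale.Agent.P354I (X P3 rm rp)
open Vale.Agent.P354R (omm)
open Vale.Agent.P354D (sgn)
open Vale.Agent.P354XE (xs pt rd ch kr kx D0 Par mir)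
open Vale.Agent.P354XM (sh rd_sh)
open Vale.Agent.P354XA (xs_pt)
open Vale.Agent.P354YR (ci DE DI isCh open_DE s_kr kU kV)
open Vale.Agent.P354YW (jk sgn_sq)
open Vale.Agent.P354YM

variable {j : Jd} {σ : Bool} {x : ℝ} {y : X} {p : P3}

lemma dl_ne (hy : y ≠ 0) : dl σ x y ≠ 0 := smul_ne_zero (Real.exp_pos _).ne' hy

lemma dl_dl (σ : Bool) (x x' : ℝ) (y : X) : dl σ x (dl σ x' y) = dl σ (x + x') y := by
  rw [dl, dl, dl, smul_smul, ← Real.exp_add, mul_add]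

lemma dl_zero (σ : Bool) (y : X) : dl σ 0 y = y := by simp [dl]

lemma lg_dl (hy : y ≠ 0) : lg σ (dl σ x y) = x + lg σ y := by
  rw [lg, dl, norm_smul, Real.norm_of_nonneg (Real.exp_pos _).le,
    Real.log_mul (Real.exp_pos _).ne' (norm_ne_zero_iff.2 hy), Real.log_exp, lg]
  linear_combination x * sgn_sq σ

lemma abs_lg (σ : Bool) (y : X) : |lg σ y| = |Real.log ‖y‖| := by cases σ <;> simp [lg, sgn]

/-- The shells are compact. -/
lemma shell_cpt (x : ℝ) : IsCompact {y : X | y ≠ 0 ∧ |Real.log ‖y‖| ≤ x} := by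
  have : {y : X | y ≠ 0 ∧ |Real.log ‖y‖| ≤ x} =
      closedBall 0 (Real.exp x) ∩ {y | Real.exp (-x) ≤ ‖y‖} := by
    ext y
    simp only [mem_ofPred_eq, mem_inter_iff, mem_closedBall_zero_iff, abs_le]
    refine ⟨fun ⟨h, h1, h2⟩ => ?_, fun ⟨h1, h2⟩ => ?_⟩
    · have := norm_pos_iff.2 h
      exact ⟨(Real.log_le_iff_le_exp this).1 h2, (Real.le_log_iff_exp_le this).1 h1⟩
    · have := (Real.exp_pos _).trans_le h2
      exact ⟨norm_pos_iff.1 this, (Real.le_log_iff_exp_le this).2 h2,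
        (Real.log_le_iff_le_exp this).2 h1⟩
  rw [this]
  exact (isCompact_closedBall _ _).inter_right (isClosed_le continuous_const continuous_norm)

lemma rd_inv {q : Par} (h : q.Rᵀ * q.R = 1) (w : R4) : rd (inv q w) = rd w := by
  have := P354XA.rd_lin (q := ⟨0, 0, 1, q.Rᵀ⟩) (by rw [transpose_transpose, mul_eq_one_comm.1 h]) w
  rw [rd, Par.lin, xs_pt] at this
  rw [rd, P354YM.inv.eq_1, xs_pt]
  exact this

/-- The ratio of the time scales. -/
def lam (j : Jd) (p : P3) : ℝ := j.k / P354R.kap p.1 p.2.1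

section

variable (h : j.Is)
include h

lemma hs0 : Real.exp (-j.k * j.T) < 1 + j.δ := by
  obtain ⟨k0, -, d0⟩ := h.hG.pos0
  exact (Real.exp_le_one_iff.2 (by nlinarith [h.hT])).trans_lt (by linarith)

lemma p0_mem : j.p0 ∈ ball j.p0 j.ε0 := mem_ball_self h.hG.pos0.2.1

lemma lam_p0 : lam j j.p0 = 1 := div_self h.hG.pos0.1.ne'

lemma js_cd (hp : p ∈ ball j.p0 j.ε0) (hy : y ≠ 0) (σ : Bool) :
    ContDiffAt ℝ ∞ (fun z : P3 × X => j.Js σ z.1 z.2) (p, y) := by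
  have c : ∀ i, ContDiff ℝ ∞ fun z : P3 × X => z.2 i := fun i =>
    (EuclideanSpace.proj i : X →L[ℝ] ℝ).contDiff.comp contDiff_snd
  exact ((jk _ _ _ _ _ _ h.hG h.hH p hp (pt j.T y) (by rwa [xs_pt]) (hs0 h)).1 σ).1.comp (p, y)
    (f := fun z : P3 × X => (z.1, pt j.T z.2)) (contDiff_fst.prodMk (contDiff_const.prodMk
      ((c 0).prodMk ((c 1).prodMk (c 2))))).contDiffAt

lemma js_bh (hp : p ∈ ball j.p0 j.ε0) (hy : y ≠ 0) (σ : Bool) : j.Js σ p y ∈ Bh p.1 p.2.1 ∧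
    rd (j.Js σ p y) = rd (j.Js true p y) := by
  have := (jk _ _ _ _ _ _ h.hG h.hH p hp (pt j.T y) (by rwa [xs_pt]) (hs0 h)).1
  exact ⟨(this σ).2.2.1, (this σ).2.1.trans (this true).2.1.symm⟩

/-- The dilations act by shifts. -/
lemma js_dl (hp : p ∈ ball j.p0 j.ε0) (hy : y ≠ 0) (σ : Bool) (x : ℝ) : j.Js σ p (dl σ x y) =
    sh (lam j p * x) (omm p.1 p.2.1 * (lam j p * x)) (j.Js σ p y) := by
  have := ((jk _ _ _ _ _ _ h.hG h.hH p hp (pt j.T y) (by rwa [xs_pt]) (hs0 h)).1 σ).2.2.2.2 _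
    (Real.exp_pos (sgn σ * x))
  rw [Real.log_exp, show sgn σ * (j.k / P354R.kap p.1 p.2.1 * (sgn σ * x)) = lam j p * x by
    rw [lam]; linear_combination j.k / P354R.kap p.1 p.2.1 * x * sgn_sq σ,
    show sgn σ * (omm p.1 p.2.1 * (j.k / P354R.kap p.1 p.2.1 * (sgn σ * x))) =
      omm p.1 p.2.1 * (lam j p * x) by
    rw [lam]; linear_combination omm p.1 p.2.1 * (j.k / P354R.kap p.1 p.2.1) * x * sgn_sq σ]
    at this
  exact this

lemma j0_eq (hy : y ≠ 0) (σ : Bool) : j.J0 y = ch j.M j.a σ (j.Js σ j.p0 y) := by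
  cases σ
  · exact (jk _ _ _ _ _ _ h.hG h.hH _ (p0_mem h) (pt j.T y) (by rwa [xs_pt]) (hs0 h)).2.2.1.symm
  · rfl

lemma j0_ci (hy : y ≠ 0) (σ : Bool) : j.J0 y ∈ DE j.M j.a σ ∧
    ci j.M j.a σ (j.J0 y) = j.Js σ j.p0 y ∧ kr j.M j.a (j.J0 y) = rd (j.Js true j.p0 y) := by
  have c := isCh (h.hG.par _ (p0_mem h)).2.1 σ
  obtain ⟨m, e⟩ := js_bh h (p0_mem h) hy σ
  rw [j0_eq h hy σ]
  exact ⟨c.maps m.1, c.left _ m.1, (c.rad _ m.1).trans e⟩

lemma j0_cd (hy : y ≠ 0) : ContDiffAt ℝ ∞ j.J0 y :=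
  (P354YR.s_kap (h.hG.par _ (p0_mem h)).2.1 (js_bh h (p0_mem h) hy true).1.1).comp y
    ((js_cd h (p0_mem h) hy true).comp y (contDiffAt_const.prodMk contDiffAt_id))

end

/-- In the black hole the Kruskal time is positive. -/
lemma time_pos {M a : ℝ} {w : R4} (h : w ∈ DE M a σ) (h' : kr M a w < rp M a) : 0 < w.1 := by
  have e := h.2
  rw [kr] at h'
  cases σ <;> simp only [kU, kV, cond_true, cond_false] at e <;> nlinarith

theorem rad : RAD := fun j h _ hM => by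
  have m : rm j.M j.a < j.M := by
    have := Real.sqrt_pos.2 (show 0 < j.M ^ 2 - j.a ^ 2 by nlinarith [sq_abs j.a, abs_nonneg j.a])
    rw [rm]
    linarith
  obtain ⟨y0, h0, h1⟩ := (shell_cpt 0).exists_isMinOn (f := fun y => rd (j.Js true j.p0 y))
    ⟨EuclideanSpace.single 0 1, by simp⟩ fun y hy => (P354XA.rd_cont.continuousAt.comp
      ((js_cd h (p0_mem h) hy.1 true).continuousAt.comp_of_eq
        (continuousAt_const.prodMk continuousAt_id) rfl)).continuousWithinAt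
  obtain ⟨r2, k1, k2⟩ := exists_between (lt_min m (js_bh h (p0_mem h) h0.1 true).1.1)
  have R : j.Rad r2 := fun y hy => by
    have := h1 (a := dl true (-lg true y) y)
      ⟨dl_ne hy, by rw [← abs_lg true, lg_dl hy, neg_add_cancel, abs_zero]⟩
    simp only [mem_ofPred_eq, js_dl h (p0_mem h) hy, rd_sh] at this
    exact (k2.trans_le (min_le_right _ _)).trans_le this
  refine ⟨r2, ⟨k1, k2.trans_le (min_le_left _ _)⟩, R, fun y hy => (j0_cd h hy).contDiffWithinAt,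
    fun y hy => ?_⟩
  obtain ⟨e1, -, e3⟩ := j0_ci h hy true
  exact ⟨e1.1.1, time_pos e1 (e3.trans_lt (js_bh h (p0_mem h) hy true).1.2), e3 ▸ R y hy⟩

lemma js_ct (h : j.Is) (σ : Bool) (hy : y ≠ 0) : ContinuousAt (j.Js σ j.p0) y :=
  ((js_cd h (p0_mem h) hy σ).comp y (f := fun z => (j.p0, z))
    (contDiffAt_const.prodMk contDiffAt_id)).continuousAt

lemma ex_C (h : j.Is) : ∃ C, ∀ σ, ∀ y ≠ 0, |(j.Js σ j.p0 y).1 - lg σ y| ≤ C := by
  have p0 := p0_mem h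
  obtain ⟨C, hC⟩ := (shell_cpt 0).exists_bound_of_continuousOn
    (f := fun y => ((j.Js true j.p0 y).1, (j.Js false j.p0 y).1)) fun y hy =>
      ((js_ct h true hy.1).fst.prodMk (js_ct h false hy.1).fst).continuousWithinAt
  exact ⟨C, fun σ y hy => by
    have := hC (dl σ (-lg σ y) y) ⟨dl_ne hy, by rw [← abs_lg σ, lg_dl hy, neg_add_cancel, abs_zero]⟩
    have e : (j.Js σ j.p0 (dl σ (-lg σ y) y)).1 = (j.Js σ j.p0 y).1 - lg σ y := by
      rw [js_dl h p0 hy, lam_p0 h, one_mul, sub_eq_add_neg]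
      rfl
    rw [← e]
    cases σ
    exacts [(norm_snd_le _).trans this, (norm_fst_le _).trans this]⟩

lemma ev1 (h : j.Is) {r2 : ℝ} (hR : j.Rad r2) (x0 : ℝ) :
    ∀ᶠ v : R4 in 𝓝 0, ∀ y ∈ {y : X | y ≠ 0 ∧ |Real.log ‖y‖| ≤ x0 + 1},
    r2 < kr j.M j.a (j.J0 y + v) ∧ kr j.M j.a (j.J0 y + v) < rp j.M j.a ∧ ∀ σ,
      j.J0 y + v ∈ DE j.M j.a σ ∧ |(ci j.M j.a σ (j.J0 y + v)).1 - (j.Js σ j.p0 y).1| < 1 := by
  have p0 := p0_mem h
  refine (shell_cpt _).eventually_forall_of_forall_eventually fun y hy => ?_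
  have c : ContinuousAt (fun z : R4 × X => j.J0 z.2 + z.1) (0, y) :=
    ((j0_cd h hy.1).continuousAt.comp_of_eq continuousAt_snd rfl).add continuousAt_fst
  have e := j0_ci h hy.1
  have c1 := (s_kr (M := j.M) (a := j.a) contDiffAt_id (e true).1.1.1).continuousAt.comp_of_eq c
    (add_zero _)
  refine (continuousAt_const.eventually_lt c1 ?_).and ((c1.eventually_lt continuousAt_const
    ?_).and (eventually_all.2 fun σ => (c.eventually ((open_DE σ).mem_nhds ?_)).and ?_))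
  · simpa [(e true).2.2] using hR y hy.1
  · simp only [Function.comp, id, add_zero, (e true).2.2]
    exact (js_bh h p0 hy.1 true).1.2
  · simpa using (e σ).1
  refine ContinuousAt.eventually_lt ((((isCh (h.hG.par _ p0).2.1 σ).back.smooth.continuousOn.continuousAt
    ((open_DE σ).mem_nhds (e σ).1)).comp_of_eq c (add_zero _)).fst.sub
      ((js_ct h σ hy.1).comp_of_eq continuousAt_snd rfl).fst).abs continuousAt_const ?_
  simp [(e σ).2.1]

lemma lam_ct (h : j.Is) : ContinuousAt (lam j) j.p0 := by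
  have := (h.hG.par _ (p0_mem h)).1
  refine ContinuousAt.div continuousAt_const ?_ h.hG.pos0.1.ne'
  unfold P354R.kap P354R.rp P354R.rm
  exact ContinuousAt.div (by fun_prop) (by fun_prop) (by positivity)

lemma ev2 (h : j.Is) {r2 : ℝ} (hR : j.Rad r2) :
    ∀ᶠ z : P3 × ℝ in 𝓝 (j.p0, 0), (z.1 ∈ ball j.p0 j.ε0 ∧ |lam j z.1 - 1| < 1 / 4) ∧
      ∀ y ∈ {y : X | y ≠ 0 ∧ |Real.log ‖y‖| ≤ 1}, ∀ σ, r2 + 2 * z.2 < rd (j.Js σ z.1 y) ∧
        rd (j.Js σ z.1 y) + 2 * z.2 < rp j.M j.a := by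
  have p0 := p0_mem h
  have c0 : ContinuousAt (fun z : P3 × ℝ => |lam j z.1 - 1|) (j.p0, 0) :=
    (((lam_ct h).comp_of_eq continuousAt_fst rfl).sub continuousAt_const).abs
  refine ((continuousAt_fst.eventually (isOpen_ball.mem_nhds p0)).and
    (c0.eventually_lt continuousAt_const (by simp [lam_p0 h]))).and
    ((shell_cpt _).eventually_forall_of_forall_eventually fun y hy =>
      eventually_all.2 fun σ => ?_)
  have c : ContinuousAt (fun z : (P3 × ℝ) × X => rd (j.Js σ z.1.1 z.2)) ((j.p0, 0), y) :=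
    P354XA.rd_cont.continuousAt.comp ((js_cd h p0 hy.1 σ).comp ((j.p0, (0 : ℝ)), y)
      (f := fun z : (P3 × ℝ) × X => (z.1.1, z.2)) (by fun_prop)).continuousAt
  obtain ⟨b1, b2⟩ := js_bh h p0 hy.1 σ
  refine (ContinuousAt.eventually_lt (by fun_prop) c (by simpa [b2] using hR y hy.1)).and
    ((c.add (by fun_prop)).eventually_lt continuousAt_const ?_)
  simp only [Pi.add_apply, mul_zero, add_zero]
  exact b1.2

theorem chain : CHAIN := fun j r1 r0 r2 s δ h hB hR => by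
  have p0 := p0_mem h
  obtain ⟨C, hC'⟩ := ex_C h
  refine ⟨2 * (C + 1), fun x0 hx0 => ?_⟩
  obtain ⟨e1, e1p, E1⟩ := Metric.eventually_nhds_iff.1 (ev1 h hR x0)
  obtain ⟨e2, e2p, E2⟩ := Metric.eventually_nhds_iff.1 (ev2 h hR)
  obtain ⟨e0, e0p, l1, l2, l3⟩ : ∃ e0 > 0, e0 < e1 ∧ e0 < e2 ∧ e0 ≤ 1 / 8 :=
    ⟨min (min e1 e2 / 2) (1 / 8), by positivity, (min_le_left _ _).trans_lt
      (by linarith [min_le_left e1 e2, lt_min e1p e2p]), (min_le_left _ _).trans_lt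
      (by linarith [min_le_right e1 e2, lt_min e1p e2p]), min_le_right _ _⟩
  refine ⟨e0, e0p, fun n e he O J q hq hO hA => ?_⟩
  have F2 := fun σ => @E2 (pp j.M (q σ), e0) (by
    simp only [Prod.dist_eq, pp, Jd.p0, Real.dist_eq, max_lt_iff, sub_self, sub_zero, abs_zero]
    exact ⟨⟨(hq σ).1.trans l2, (hq σ).2.1.trans l2, e2p⟩, by rwa [abs_of_pos e0p]⟩)
  have F1 : ∀ y ∈ O, |Real.log ‖y‖| ≤ x0 + 1 → r2 < kr j.M j.a (J y) ∧
      kr j.M j.a (J y) < rp j.M j.a ∧ ∀ σ, J y ∈ DE j.M j.a σ ∧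
        |(ci j.M j.a σ (J y)).1 - (j.Js σ j.p0 y).1| < 1 := fun y hy hl => by
    have k := hA.mid y hy hl 0 (Nat.zero_le _)
    rw [norm_iteratedFDeriv_zero] at k
    have := @E1 (J y - j.J0 y) (by rw [dist_zero_right]; exact (k.trans he).trans_lt l1) y
      ⟨hO.1 y hy, hl⟩
    rwa [add_sub_cancel] at this
  have F3 : ∀ σ, ∀ x ≥ x0, ∃ c φ, ∀ y ≠ 0, lg σ y ∈ Icc (-1 : ℝ) 1 → dl σ x y ∈ O →
      J (dl σ x y) ∈ DE j.M j.a σ ∧ ‖iq j.M j.a σ (q σ) (J (dl σ x y)) -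
        sh c φ (j.Js σ (pp j.M (q σ)) y)‖ ≤ e0 := fun σ x hx => by
    obtain ⟨c, φ, k⟩ := hA.box σ x hx
    refine ⟨c, φ, fun y hy hl hm => ⟨(k y hy hl hm).1, ?_⟩⟩
    have k1 := (k y hy hl hm).2 0 (Nat.zero_le _)
    rw [norm_iteratedFDeriv_zero] at k1
    have k2 : (1 + x) ^ (-s) ≤ 1 := Real.rpow_le_one_of_one_le_of_nonpos (by linarith)
      (by linarith [hB.hs])
    have k3 : 0 ≤ (1 + x) ^ (-s) := Real.rpow_nonneg (by linarith) _
    exact k1.trans (by nlinarith)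
  have T : ∀ (σ) (m : ℕ), ∀ y ∈ O, x0 - 1 ≤ lg σ y → lg σ y ≤ x0 + m →
      lg σ y / 2 - 2 * (C + 1) ≤ (iq j.M j.a σ (q σ) (J y)).1 ∧
        (iq j.M j.a σ (q σ) (J y)).1 ≤ 2 * lg σ y + 2 * (C + 1) := fun σ m => by
    have base : ∀ y ∈ O, x0 - 1 ≤ lg σ y → lg σ y ≤ x0 →
        lg σ y / 2 - 2 * (C + 1) ≤ (iq j.M j.a σ (q σ) (J y)).1 ∧
          (iq j.M j.a σ (q σ) (J y)).1 ≤ 2 * lg σ y + 2 * (C + 1) := fun y hy h1 h2 => by
      have k1 := abs_lt.1 ((F1 y hy (by rw [← abs_lg σ, abs_le]; constructor <;> linarith)).2.2 σ).2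
      have k2 := abs_le.1 (hC' σ y (hO.1 y hy))
      have k3 := abs_lt.1 (hq σ).2.2.1
      have k4 : 0 ≤ C := (abs_nonneg _).trans (hC' σ y (hO.1 y hy))
      change _ ≤ (ci j.M j.a σ (J y)).1 / (q σ).l ∧ (ci j.M j.a σ (J y)).1 / (q σ).l ≤ _
      rw [le_div_iff₀ (by linarith), div_le_iff₀ (by linarith)]
      constructor <;> nlinarith
    induction m with
    | zero => exact fun y hy h1 h2 => base y hy h1 (by simpa using h2)
    | succ m ih =>
      intro y hy h1 h2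
      rcases le_total (lg σ y) x0 with h3 | h3
      · exact base y hy h1 h3
      have y0 := hO.1 y hy
      have m1 := hO.2 σ y hy 1 ⟨zero_le_one, by linarith⟩
      push_cast at h2
      have i := ih _ m1 (by rw [lg_dl y0]; linarith) (by rw [lg_dl y0]; linarith)
      obtain ⟨c, φ, k⟩ := F3 σ _ h3
      have z0 : dl σ (-lg σ y) y ≠ 0 := dl_ne y0
      have k1 := k _ z0 (by rw [lg_dl y0]; simp) (by rwa [dl_dl, add_neg_cancel, dl_zero])
      have e : dl σ (lg σ y) (dl σ (-1) (dl σ (-lg σ y) y)) = dl σ (-1) y := by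
        rw [dl_dl, dl_dl]; congr 1; ring
      have k2 := k (dl σ (-1) (dl σ (-lg σ y) y)) (dl_ne z0) (by rw [lg_dl z0, lg_dl y0]; simp)
        (by rwa [e])
      rw [dl_dl, add_neg_cancel, dl_zero] at k1
      rw [e, js_dl h (F2 σ).1.1 z0] at k2
      have k3 := abs_le.1 ((norm_fst_le _).trans k1.2)
      have k4 := abs_le.1 ((norm_fst_le _).trans k2.2)
      have k5 := abs_lt.1 (F2 σ).1.2
      simp only [Prod.fst_sub, sh] at k3 k4 k5
      rw [lg_dl y0] at i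
      constructor <;> linarith [i.1, i.2, k3.1, k3.2, k4.1, k4.2, k5.1, k5.2]
  intro y hy
  have y0 := hO.1 y hy
  have K : r2 < kr j.M j.a (J y) ∧ kr j.M j.a (J y) < rp j.M j.a ∧ ∃ σ, J y ∈ DE j.M j.a σ := by
    rcases le_total |Real.log ‖y‖| x0 with h1 | h1
    · have := F1 y hy (by linarith)
      exact ⟨this.1, this.2.1, true, (this.2.2 true).1⟩
    obtain ⟨σ, hσ⟩ : ∃ σ, x0 ≤ lg σ y := by
      rcases le_abs.1 h1 with h2 | h2
      exacts [⟨true, by simpa [lg, sgn] using h2⟩, ⟨false, by simpa [lg, sgn] using h2⟩]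
    obtain ⟨c, φ, k⟩ := F3 σ _ hσ
    have k1 := k (dl σ (-lg σ y) y) (dl_ne y0) (by rw [lg_dl y0]; simp)
      (by rwa [dl_dl, add_neg_cancel, dl_zero])
    rw [dl_dl, add_neg_cancel, dl_zero] at k1
    have k2 := abs_le.1 ((P354YO.rd_lip _ _).trans (mul_le_mul_of_nonneg_left k1.2 zero_le_two))
    have k3 := (F2 σ).2 (dl σ (-lg σ y) y) ⟨dl_ne y0, by rw [← abs_lg σ, lg_dl y0]; simp⟩ σ
    have c := isCh hB.lt σ
    have k4 := c.rad _ (c.back.maps k1.1)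
    rw [c.right _ k1.1] at k4
    rw [rd_sh, iq, Function.comp, rd_inv (hq σ).2.2.2.1, ← k4] at k2
    exact ⟨by linarith [k2.1, k3.1], by linarith [k2.2, k3.2], σ, k1.1⟩
  obtain ⟨k1, k2, σ, k3⟩ := K
  refine ⟨⟨⟨k3.1.1, (time_pos k3 k2).le, by linarith [hB.r1]⟩, k1, k2⟩, fun σ h1 => ?_⟩
  obtain ⟨m, hm⟩ := exists_nat_ge (lg σ y - x0)
  exact T σ m y hy h1 (by linarith)

end Vale.Agent.P354YJ
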