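import Vale.Agent.P354YJ.JDefs
import Vale.Agent.P354YJ.GinM
import Vale.Agent.P354RK.Main
import Vale.Agent.P354RC.Pull

/-!
GIN: the Kerr metric in ingoing coordinates is a vacuum metric on r > 0.
-/

open scoped ContDiff
open Set Filter Topology Metric

noncomputable section

namespace Vale.Agent.P354YJ

open Vale.Agent.P354n (R4)
open Vale.Agent.P354I (X dT dP rnd Sg)
open Vale.Agent.P354R (Met Vac Pull Del Sig kbl kdom)
open Vale.Agent.P354XE (xs pt rd gin dr dq kf eT)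
open Vale.Agent.P354XA Vale.Agent.P354RC

theorem prim {h : ℝ → ℝ} {r0 ε : ℝ} (hh : ContDiffOn ℝ ∞ h (ball r0 ε)) :
    ∃ T, ContDiffOn ℝ ∞ T (ball r0 ε) ∧ ∀ r ∈ ball r0 ε, HasDerivAt T (h r) r := by
  have k : ∀ r ∈ ball r0 ε, HasDerivAt (fun r => ∫ s in r0..r, h s) (h r) r := fun r hr =>
    intervalIntegral.integral_hasDerivAt_right
      ((hh.continuousOn.mono ((convex_ball r0 ε).ordConnected.uIcc_subset
        (mem_ball_self (pos_of_mem_ball hr)) hr)).intervalIntegrable)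
      (hh.continuousOn.stronglyMeasurableAtFilter isOpen_ball r hr)
      (hh.continuousOn.continuousAt (isOpen_ball.mem_nhds hr))
  exact ⟨_, (contDiffOn_infty_iff_deriv_of_isOpen isOpen_ball).2
    ⟨fun r hr => (k r hr).differentiableAt.differentiableWithinAt,
      hh.congr fun r hr => (k r hr).deriv⟩, k⟩

/-- From the Boyer-Lindquist coordinates (t, r, cos θ, φ) to the ingoing coordinates. -/
def Bl (T F : ℝ → ℝ) (y : R4) : R4 :=
  (y.1 + T y.2.1, y.2.1 * √(1 - y.2.2.1 ^ 2) * Real.cos (y.2.2.2 + F y.2.1),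
    y.2.1 * √(1 - y.2.2.1 ^ 2) * Real.sin (y.2.2.2 + F y.2.1), y.2.1 * y.2.2.1)

/-- The point, and the image of a vector. -/
def Bp (t r s z c n : ℝ) : R4 := (t, r * s * c, r * s * n, r * z)
def Bv (T' F' r s z c n : ℝ) (A : R4) : R4 :=
  (A.1 + T' * A.2.1, (s * A.2.1 - r * (z * A.2.2.1 / s)) * c - r * s * n * (A.2.2.2 + F' * A.2.1),
    (s * A.2.1 - r * (z * A.2.2.1 / s)) * n + r * s * c * (A.2.2.2 + F' * A.2.1),
    z * A.2.1 + r * A.2.2.1)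

variable {T F : ℝ → ℝ} {T' F' M a t r s z c n : ℝ} {y : R4}

theorem Bl_fd (hT : HasDerivAt T T' y.2.1) (hF : HasDerivAt F F' y.2.1) (hz : 0 < 1 - y.2.2.1 ^ 2)
    (A : R4) : fderiv ℝ (Bl T F) y A = Bv T' F' y.2.1 √(1 - y.2.2.1 ^ 2) y.2.2.1
      (Real.cos (y.2.2.2 + F y.2.1)) (Real.sin (y.2.2.2 + F y.2.1)) A := by
  have i := hasFDerivAt_id (𝕜 := ℝ) y
  have x0 := i.fst
  have x1 := i.snd.fst
  have x2 := i.snd.snd.fst
  have x3 := i.snd.snd.snd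
  have s1 := ((x2.pow 2).const_sub 1).sqrt hz.ne'
  have p1 := x3.add (hF.comp_hasFDerivAt y x1)
  have k := (x0.add (hT.comp_hasFDerivAt y x1)).prodMk
    (((x1.mul s1).mul p1.cos).prodMk (((x1.mul s1).mul p1.sin).prodMk (x1.mul x2)))
  have e : fderiv ℝ (Bl T F) y = _ := k.fderiv
  have h0 := (Real.sqrt_pos.2 hz).ne'
  rw [e, Bv]
  refine Prod.ext ?_ (Prod.ext ?_ (Prod.ext ?_ ?_)) <;> simp <;> field_simp <;> ring

theorem rd_Bp (hr : 0 < r) (hs : s ^ 2 = 1 - z ^ 2) (hc : c ^ 2 + n ^ 2 = 1) :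
    rd (Bp t r s z c n) = r := by
  rw [rd_eq]
  refine (congrArg _ ?_).trans (Real.sqrt_sq hr.le)
  simp only [ip, Bp]
  linear_combination r ^ 2 * s ^ 2 * hc + r ^ 2 * hs

theorem gin_Bp (hr : 0 < r) (h0 : s ≠ 0) (hs : s ^ 2 = 1 - z ^ 2) (hc : c ^ 2 + n ^ 2 = 1)
    (hD : Del M a r ≠ 0) (φ : ℝ) (A B : R4) :
    kbl M a (t, r, z, φ) A B = gin M a (Bp t r s z c n)
      (Bv (2 * M * r / Del M a r) (a / Del M a r) r s z c n A)
      (Bv (2 * M * r / Del M a r) (a / Del M a r) r s z c n B) := by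
  have e0 := rd_Bp (t := t) hr hs hc
  have hr' := hr.ne'
  have e1 : ∀ T' F' A, ip (Bp t r s z c n) (Bv T' F' r s z c n A) = r * A.2.1 := fun T' F' A => by
    simp only [ip, Bp, Bv]
    field_simp
    linear_combination (s * s * A.2.1 - r * z * A.2.2.1) * hc + A.2.1 * hs
  have e2 : ∀ T' F' A, dr (Bp t r s z c n) (Bv T' F' r s z c n A) = A.2.1 := fun T' F' A => by
    rw [dr_eq, e0, e1]; field_simp
  have e3 : ∀ T' F' A, dq (Bp t r s z c n) (Bv T' F' r s z c n A) =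
      (1 - z ^ 2) * (A.2.2.2 + F' * A.2.1) := fun T' F' A => by
    rw [dq_eq, e0, ← hs]
    simp only [Bp, Bv]
    field_simp
    linear_combination r * s ^ 2 * (A.2.2.2 + F' * A.2.1) * hc
  have e4 : ∀ T' F' A B, rnd (xs (Bp t r s z c n)) (xs (Bv T' F' r s z c n A))
      (xs (Bv T' F' r s z c n B)) = A.2.2.1 * B.2.2.1 / (1 - z ^ 2) +
        (1 - z ^ 2) * ((A.2.2.2 + F' * A.2.1) * (B.2.2.2 + F' * B.2.1)) := fun T' F' A B => by
    have : ip (Bv T' F' r s z c n A) (Bv T' F' r s z c n B) =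
        (s * A.2.1 - r * (z * A.2.2.1 / s)) * (s * B.2.1 - r * (z * B.2.2.1 / s)) +
          r ^ 2 * s ^ 2 * ((A.2.2.2 + F' * A.2.1) * (B.2.2.2 + F' * B.2.1)) +
          (z * A.2.1 + r * A.2.2.1) * (z * B.2.1 + r * B.2.2.1) := by
      simp only [ip, Bv]
      linear_combination ((s * A.2.1 - r * (z * A.2.2.1 / s)) * (s * B.2.1 - r * (z * B.2.2.1 / s)) +
        r ^ 2 * s ^ 2 * ((A.2.2.2 + F' * A.2.1) * (B.2.2.2 + F' * B.2.1))) * hc
    rw [rnd_eq, e0, e1, e1, this, ← hs]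
    field_simp
    linear_combination (s ^ 2 * A.2.1 * B.2.1 + r ^ 2 * A.2.2.1 * B.2.2.1) * hs
  have e5 : Sg a r (xs (Bp t r s z c n)) = Sig a r z := by
    have := Sg_eq a (Bp t r s z c n)
    rw [e0] at this
    rw [this, Sig, Bp]
    field_simp
  have h1 : 1 - z ^ 2 ≠ 0 := hs ▸ pow_ne_zero 2 h0
  have h2 : Sig a r z ≠ 0 := by rw [Sig]; positivity
  have h3 : 2 * M * r = r ^ 2 + a ^ 2 - Del M a r := by rw [Del]; ring
  simp only [gin, kf, e0, e2, e3, e4, e5, kbl, h3]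
  have h4 : Sig a r z = r ^ 2 + a ^ 2 * z ^ 2 := rfl
  simp only [Bv]
  generalize Del M a r = D at *
  generalize Sig a r z = S at *
  field_simp
  subst h4
  ring

theorem open_D (r0 ε : ℝ) : IsOpen {y : R4 | y.2.1 ∈ ball r0 ε ∧ 0 < 1 - y.2.2.1 ^ 2} :=
  (isOpen_ball.preimage (f := fun y : R4 => y.2.1) (by fun_prop)).inter
    (show IsOpen {y : R4 | 0 < 1 - y.2.2.1 ^ 2} from isOpen_lt continuous_const (by fun_prop))

theorem pull_Bl {r0 ε : ℝ} (hb : ∀ r ∈ ball r0 ε, 0 < r ∧ Del M a r ≠ 0)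
    (hT : ContDiffOn ℝ ∞ T (ball r0 ε) ∧ ∀ r ∈ ball r0 ε, HasDerivAt T (2 * M * r / Del M a r) r)
    (hF : ContDiffOn ℝ ∞ F (ball r0 ε) ∧ ∀ r ∈ ball r0 ε, HasDerivAt F (a / Del M a r) r) :
    Pull (Bl T F) (kbl M a) {y : R4 | y.2.1 ∈ ball r0 ε ∧ 0 < 1 - y.2.2.1 ^ 2} (gin M a)
      {p | 0 < rd p} ∧ {y : R4 | y.2.1 ∈ ball r0 ε ∧ 0 < 1 - y.2.2.1 ^ 2} ⊆ kdom M a := by
  have s : {y : R4 | y.2.1 ∈ ball r0 ε ∧ 0 < 1 - y.2.2.1 ^ 2} ⊆ kdom M a := fun y hy =>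
    ⟨(hb _ hy.1).2, by have := (hb _ hy.1).1; rw [Sig]; positivity, hy.2.ne'⟩
  have e : ∀ y ∈ {y : R4 | y.2.1 ∈ ball r0 ε ∧ 0 < 1 - y.2.2.1 ^ 2}, ∀ A B, kbl M a y A B =
      gin M a (Bl T F y) (fderiv ℝ (Bl T F) y A) (fderiv ℝ (Bl T F) y B) := fun y hy A B => by
    rw [Bl_fd (hT.2 _ hy.1) (hF.2 _ hy.1) hy.2, Bl_fd (hT.2 _ hy.1) (hF.2 _ hy.1) hy.2]
    exact gin_Bp (t := y.1 + T y.2.1) (hb _ hy.1).1 (Real.sqrt_pos.2 hy.2).ne'
      (Real.sq_sqrt hy.2.le) (Real.cos_sq_add_sin_sq _) (hb _ hy.1).2 y.2.2.2 A B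
  refine ⟨⟨open_D r0 ε, open_rd, gin_met M a, fun y hy => ?_, fun y hy => ?_, fun y hy => ?_, e⟩, s⟩
  · have x1 : ContDiffAt ℝ ∞ (fun y : R4 => y.2.1) y := by fun_prop
    have t1 := (hT.1.contDiffAt (isOpen_ball.mem_nhds hy.1)).comp y x1
    have p1 : ContDiffAt ℝ ∞ (fun y : R4 => y.2.2.2 + F y.2.1) y := ContDiffAt.add (by fun_prop)
      ((hF.1.contDiffAt (isOpen_ball.mem_nhds hy.1)).comp y x1)
    have s1 : ContDiffAt ℝ ∞ (fun y : R4 => √(1 - y.2.2.1 ^ 2)) y :=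
      ContDiffAt.sqrt (by fun_prop) hy.2.ne'
    exact ((contDiffAt_fst.add t1).prodMk (((x1.mul s1).mul p1.cos).prodMk
      (((x1.mul s1).mul p1.sin).prodMk (x1.mul (by fun_prop))))).contDiffWithinAt
  · exact (hb _ hy.1).1.trans_eq (rd_Bp (t := y.1 + T y.2.1) (hb _ hy.1).1 (Real.sq_sqrt hy.2.le)
      (Real.cos_sq_add_sin_sq _)).symm
  · refine (injective_iff_map_eq_zero _).2 fun A hA => (P354RK.k1 M a).1.nondeg y (s hy) A
      fun B => ?_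
    rw [e y hy, hA, gin_symm]
    exact (gin_lin M a _ _).map_zero

theorem ex_Bl {p : R4} (h : p.2.1 ^ 2 + p.2.2.1 ^ 2 ≠ 0) (T F : ℝ → ℝ) :
    0 < rd p ∧ ∃ y : R4, y.2.1 = rd p ∧ 0 < 1 - y.2.2.1 ^ 2 ∧ Bl T F y = p := by
  have h1 : 0 < p.2.1 ^ 2 + p.2.2.1 ^ 2 := lt_of_le_of_ne (by positivity) h.symm
  have h2 := rd_sq p
  rw [ip] at h2
  have h3 : 0 < rd p := lt_of_le_of_ne (rd_nonneg p) fun k => by
    rw [← k] at h2; nlinarith [mul_self_nonneg p.2.2.2]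
  obtain ⟨w, hw⟩ : ∃ w : ℂ, w = ⟨p.2.1, p.2.2.1⟩ := ⟨_, rfl⟩
  have w1 : ‖w‖ ^ 2 = p.2.1 ^ 2 + p.2.2.1 ^ 2 := by
    rw [Complex.sq_norm, Complex.normSq_apply, hw]; ring
  have w0 : w ≠ 0 := fun k => h (by rw [← w1, k]; simp)
  have w2 := norm_pos_iff.2 w0
  have e : 1 - (p.2.2.2 / rd p) ^ 2 = (‖w‖ / rd p) ^ 2 := by
    field_simp
    linear_combination h2 - w1
  refine ⟨h3, (p.1 - T (rd p), rd p, p.2.2.2 / rd p, w.arg - F (rd p)), rfl, ?_, ?_⟩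
  · rw [e]; positivity
  · simp only [Bl, sub_add_cancel, e, Real.sqrt_sq (div_pos w2 h3).le, Complex.cos_arg w0,
      Complex.sin_arg]
    refine Prod.ext rfl (Prod.ext ?_ (Prod.ext ?_ ?_))
    · field_simp; rw [hw]
    · field_simp; rw [hw]
    · field_simp

theorem clos (M a : ℝ) (p : R4) :
    p ∈ closure {p : R4 | p.2.1 ^ 2 + p.2.2.1 ^ 2 ≠ 0 ∧ Del M a (rd p) ≠ 0} := by
  have k1 : p ∈ closure {p : R4 | p.2.1 ^ 2 + p.2.2.1 ^ 2 ≠ 0} := by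
    have := map_mem_closure (f := fun x : ℝ => ((p.1, x, p.2.2) : R4)) (by fun_prop)
      (dense_compl_singleton 0 p.2.1) (t := {p : R4 | p.2.1 ^ 2 + p.2.2.1 ^ 2 ≠ 0})
      fun x (hx : x ≠ 0) => by
        change x ^ 2 + p.2.2.1 ^ 2 ≠ 0
        positivity
    exact this
  rw [← closure_closure]
  refine closure_mono (fun q hq => ?_) k1
  have h3 := (ex_Bl hq id id).1
  have d := ((toFinite {0, (M + √(M ^ 2 - a ^ 2)) / rd q, (M - √(M ^ 2 - a ^ 2)) / rd q,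
    (-M - √(M ^ 2 - a ^ 2)) / rd q, (-M + √(M ^ 2 - a ^ 2)) / rd q}).countable.dense_compl ℝ) 1
  have := map_mem_closure (f := fun x : ℝ => ((q.1, x • q.2) : R4)) (by fun_prop) d
    (t := {p : R4 | p.2.1 ^ 2 + p.2.2.1 ^ 2 ≠ 0 ∧ Del M a (rd p) ≠ 0}) fun x hx => by
      simp only [mem_compl_iff, mem_insert_iff, mem_singleton_iff, not_or, eq_div_iff h3.ne'] at hx
      obtain ⟨x0, x1, x2, x3, x4⟩ := hx
      refine ⟨fun k => mul_ne_zero (pow_ne_zero 2 x0) hq (by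
        simp only [Prod.smul_fst, Prod.smul_snd, smul_eq_mul] at k
        linear_combination k), fun k => ?_⟩
      have e : rd (q.1, x • q.2) ^ 2 = (x * rd q) ^ 2 := by
        rw [mul_pow, rd_sq, rd_sq]
        simp only [ip, Prod.smul_fst, Prod.smul_snd, smul_eq_mul]
        ring
      rw [Del] at k
      have e2 : (rd (q.1, x • q.2) - M) ^ 2 = √(M ^ 2 - a ^ 2) ^ 2 := by
        rw [Real.sq_sqrt (by nlinarith [sq_nonneg (rd (q.1, x • q.2) - M)])]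
        linear_combination k
      rcases sq_eq_sq_iff_eq_or_eq_neg.1 e with e | e <;>
        rcases sq_eq_sq_iff_eq_or_eq_neg.1 e2 with e2 | e2
      exacts [x1 (by linarith), x2 (by linarith), x3 (by linarith), x4 (by linarith)]
  simpa using this

theorem gin_vac (M a : ℝ) : Vac (gin M a) {p | 0 < rd p} := by
  obtain ⟨h, r⟩ := rp_of_met open_rd (gin_met M a)
  have c : Continuous (Del M a) := by unfold Del; fun_prop
  have o : IsOpen {p : R4 | p.2.1 ^ 2 + p.2.2.1 ^ 2 ≠ 0 ∧ Del M a (rd p) ≠ 0} :=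
    (isOpen_ne_fun (by fun_prop) continuous_const).inter
      (isOpen_ne_fun (c.comp rd_cont) continuous_const)
  have s : {p : R4 | p.2.1 ^ 2 + p.2.2.1 ^ 2 ≠ 0 ∧ Del M a (rd p) ≠ 0} ⊆ {p | 0 < rd p} :=
    fun p hp => (ex_Bl hp.1 id id).1
  refine k2.2.2.2.1 _ _ _ open_rd o s (fun p _ => clos M a p) (gin_met M a)
    ((r.mono o s).vac.2 fun p hp b d => ?_)
  obtain ⟨ε, h0, hb⟩ := Metric.isOpen_iff.1 ((isOpen_Ioi (a := (0 : ℝ))).inter
    (isOpen_ne_fun c (continuous_const (y := (0 : ℝ))))) (rd p) ⟨s hp, hp.2⟩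
  have cd : ContDiffOn ℝ ∞ (Del M a) (ball (rd p) ε) := by unfold Del; fun_prop
  obtain ⟨T, hT⟩ := prim (h := fun r => 2 * M * r / Del M a r) (r0 := rd p) (ε := ε)
    (ContDiffOn.div (by fun_prop) cd fun x hx => (hb hx).2)
  obtain ⟨F, hF⟩ := prim (h := fun r => a / Del M a r) (r0 := rd p) (ε := ε)
    (contDiffOn_const.div cd fun x hx => (hb hx).2)
  obtain ⟨P, hs⟩ := pull_Bl (fun x hx => hb hx) hT hF
  obtain ⟨-, y, y1, y2, rfl⟩ := ex_Bl hp.1 T F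
  have hy : y ∈ {y : R4 | y.2.1 ∈ ball (rd (Bl T F y)) ε ∧ 0 < 1 - y.2.2.1 ^ 2} :=
    ⟨y1 ▸ mem_ball_self h0, y2⟩
  obtain ⟨b, rfl⟩ := surj_of_inj (P.inj y hy) b
  obtain ⟨d, rfl⟩ := surj_of_inj (P.inj y hy) d
  obtain ⟨G, hG⟩ := (P354RK.k1 M a).2
  exact (Ric_pb P r hy b d).symm.trans ((rp_pb P r).vac.1 ⟨G, fun y hy => hG y (hs hy)⟩ y hy b d)

/-- **GIN.** -/
theorem gin_ok : GIN := fun M a => ⟨gin_met M a, gin_vac M a⟩

end Vale.Agent.P354YJ
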