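import Vale.Agent.P354YM.Props
import Vale.Agent.P354YR.Cau
import Vale.Agent.P354YO.Ob
import Vale.Agent.P354YI.Near

/-!
The small bridges MIDK, CLS, MONO.
-/

open scoped ContDiff
open Set Filter Topology

noncomputable section

namespace Vale.Agent.P354YJ

open Vale.Agent.P354n (R4)
open Vale.Agent.P354 (Bilin)
open Vale.Agent.P354I (rm rp Sg Dat)
open Vale.Agent.P354R (Del)
open Vale.Agent.P354XE
open Vale.Agent.P354XA (met_bil pos_of_ker near_t near_r norm_sq_le ip rd_sq dr_eq Sg_ge rd_fd)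
open Vale.Agent.P354YR (gK XK XI ci DE DI DK isCh kU kV s_kr open_ne open_DI gK_met gK_lor D0_sub
  open_DK XI_gin M_pos rm_nn mf_pos rp_pos rm_lt)
open Vale.Agent.P354YM
open Vale.Agent.P354RC (at_df surj_of_inj)

variable {M a r1 θ : ℝ} {p : R4} {σ : Bool}

/-- Two timelike vectors on the same side of a spacelike hyperplane. -/
lemma cone {B : R4 → R4 → ℝ} (hB : Bilin B) (hs : ∀ a b, B a b = B b a) (f : R4 →L[ℝ] ℝ)
    (hk : ∀ v ≠ 0, f v = 0 → 0 < B v v) {Z W : R4} (h1 : 0 < f Z) (h2 : 0 < f W)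
    (h3 : B Z Z < 0) (h4 : B W W < 0) : B Z W < 0 := by
  have k : 0 ≤ B (f W • Z + (-f Z) • W) (f W • Z + (-f Z) • W) := by
    rcases eq_or_ne (f W • Z + (-f Z) • W) 0 with e | e
    · rw [e, ← zero_smul ℝ (0 : R4), hB.smul_left, zero_mul]
    · exact (hk _ e (by simp [mul_comm])).le
  simp only [hB.add_left, hB.add_right, hB.smul_left, hB.smul_right, hs W Z] at k
  nlinarith [mul_pos h1 h2, mul_pos (mul_pos h2 h2) (neg_pos.2 h3),
    mul_pos (mul_pos h1 h1) (neg_pos.2 h4)]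

lemma pb_bil {g : Tw} {f : R4 → R4} (h : Bilin (g (f p))) : Bilin (pb f g p) := by
  constructor <;> intros <;> simp only [pb, map_add, map_smul, h.add_left, h.add_right,
    h.smul_left, h.smul_right]

lemma bd0 {N : ℕ} {g g' : Tw} {c : ℝ} (h : Bd N (g - g') p c) (v : R4) :
    |g p v v - g' p v v| ≤ c * ‖v‖ ^ 2 := by
  simpa [sq] using h 0 (Nat.zero_le _) v v

lemma ch_fst (σ : Bool) (p : R4) : (ch M a σ p).1 = (kap M a p).1 := by cases σ <;> rfl

lemma mem_DE (h : p ∈ DK M a) (h0 : 0 < p.1) : ∃ σ, p ∈ DE M a σ := by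
  rcases le_total 0 (kx M a p) with k | k
  exacts [⟨true, h, add_pos_of_pos_of_nonneg h0 k⟩, ⟨false, h, sub_pos.2 (k.trans_lt h0)⟩]

theorem midk : MIDK := fun M a r1 θ ε N g g0 D Xf h h1 K L hD H p hp hb k hk v w => by
  obtain ⟨⟨D', o, s, m⟩, K⟩ := K
  have oS : IsOpen {x : R4 | xs x ≠ 0 ∧ 0 < x.1 ∧ r1 < kr M a x} :=
    isOpen_iff_mem_nhds.2 fun x hx => (open_ne.eventually_mem hx.1).and
      ((continuousAt_const.eventually_lt continuousAt_fst hx.2.1).and
        (continuousAt_const.eventually_lt (s_kr contDiffAt_id hx.1).continuousAt hx.2.2))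
  have e : ∀ x ∈ {x : R4 | xs x ≠ 0 ∧ 0 < x.1 ∧ r1 < kr M a x}, g0 x v w = gK M a x v w := by
    intro x hx
    obtain ⟨σ, hσ⟩ := mem_DE (M := M) (a := a) ⟨hx.1, h1.trans hx.2.2⟩ hx.2.1
    have c := isCh h σ
    have m1 := c.back.maps hσ
    have e1 := c.right x hσ
    obtain ⟨v, rfl⟩ := surj_of_inj (c.pull.inj _ m1) v
    obtain ⟨w, rfl⟩ := surj_of_inj (c.pull.inj _ m1) w
    have k1 := K σ (ci M a σ x) (by rw [← c.rad _ m1, e1]; exact hx.2.2)
      (by rw [← ch_fst σ, e1]; exact hx.2.1.le)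
    have k2 := c.pull.eq _ m1 v w
    rw [← k1, pb, e1] at k2
    exact k2
  have c0 := (L.met.smooth v w).contDiffAt (L.isOpen.mem_nhds (hD hp))
  have c1 := (c0.sub ((m.smooth v w).contDiffAt (o.mem_nhds (s hp)))).continuousAt_iteratedFDeriv
    (k := k) (by exact_mod_cast le_top)
  have c2 := (c0.sub (((gK_met h).smooth v w).contDiffAt (open_DK.mem_nhds
    (D0_sub h1.le hp)))).continuousAt_iteratedFDeriv (k := k) (by exact_mod_cast le_top)
  have t : Tendsto (fun t : ℝ => p + (t, 0)) (𝓝[>] 0) (𝓝 p) :=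
    (Continuous.tendsto' (f := fun t : ℝ => p + (t, 0)) (by fun_prop) 0 p (add_zero p)).mono_left
      nhdsWithin_le_nhds
  have := tendsto_nhds_unique_of_eventuallyEq (c1.tendsto.comp t) (c2.tendsto.comp t) (by
    filter_upwards [self_mem_nhdsWithin, t.eventually (open_ne.mem_nhds hp.1), t.eventually
      (continuousAt_const.eventually_lt (s_kr contDiffAt_id hp.1).continuousAt hp.2.2)]
      with t t0 t1 t2
    refine (EventuallyEq.iteratedFDeriv ℝ ?_ k).eq_of_nhds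
    filter_upwards [oS.mem_nhds ⟨t1, add_pos_of_nonneg_of_pos hp.2.1 t0, t2⟩] with x hx
    rw [e x hx])
  exact this ▸ H p hp hb k hk v w

/-- Forms close to gin. -/
lemma end_pt (h : |a| < M) (h1 : 0 < r1) : ∃ ε0 > 0, ∀ ε ≤ ε0, ∀ (p : R4) (B : R4 → R4 → ℝ),
    r1 ≤ rd p → (∀ v, |B v v - gin M a p v v| ≤ ε * ‖v‖ ^ 2) →
      (∀ v ≠ 0, v.1 = 0 → 0 < B v v) ∧ B (XI M a p) (XI M a p) < 0 ∧ 0 < (XI M a p).1 ∧
        dr p (XI M a p) < 0 := by
  have M0 := M_pos h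
  obtain ⟨c, c0, hc⟩ := near_t M0.le a h1
  refine ⟨min (1 / (2 * c)) (r1 / (4 * (r1 + 2 * M))), by positivity, fun ε hε p B hp hB => ?_⟩
  have e1 := (le_div_iff₀ (by positivity)).1 (hε.trans (min_le_left _ _))
  have e2 := (le_div_iff₀ (by positivity)).1 (hε.trans (min_le_right _ _))
  have r0 := h1.trans_le hp
  have S1 := Sg_ge a p
  have S0 := (pow_pos r0 2).trans_le S1
  have x1 : (XI M a p).1 = Sg a (rd p) (xs p) + 2 * M * rd p := rfl
  refine ⟨fun v v0 hv => ?_, ?_, by rw [x1]; positivity, ?_⟩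
  · have k1 := hc p hp v hv
    have k2 := (abs_le.1 (hB v)).1
    have k3 : 0 < ‖v‖ ^ 2 := pow_pos (norm_pos_iff.2 v0) 2
    refine pos_of_mul_pos_left (b := c) ?_ c0.le
    nlinarith [mul_le_mul_of_nonneg_left k2 c0.le]
  · have k2 := (abs_le.1 (hB (XI M a p))).2
    have k1 := norm_sq_le (XI M a p)
    have k3 : ip (XI M a p) (XI M a p) = (2 * M * rd p) ^ 2 := by
      rw [mul_pow, rd_sq]
      simp only [XI, ip, Prod.smul_fst, Prod.smul_snd, smul_eq_mul]
      ring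
    rw [XI_gin (norm_pos_iff.1 r0)] at k2
    rw [k3] at k1
    rw [x1] at k1 k2
    generalize Sg a (rd p) (xs p) = S at *
    have k4 : 0 < 2 * M * rd p := by positivity
    have k5 : r1 * (S + 2 * M * rd p) ≤ (r1 + 2 * M) * S := by
      nlinarith [mul_le_mul_of_nonneg_left hp k4.le]
    have k6 : ‖XI M a p‖ ^ 2 ≤ 2 * (S + 2 * M * rd p) ^ 2 := by nlinarith
    rcases le_total ε 0 with e0 | e0
    · nlinarith [mul_nonpos_of_nonpos_of_nonneg e0 (sq_nonneg ‖XI M a p‖)]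
    have k7 : 2 * ε * (S + 2 * M * rd p) < S := by
      refine lt_of_mul_lt_mul_left (a := r1) ?_ h1.le
      nlinarith [mul_le_mul_of_nonneg_left k5 e0, mul_pos h1 S0]
    nlinarith [mul_le_mul_of_nonneg_left k6 e0]
  · rw [dr_eq, div_neg_iff]
    refine Or.inr ⟨?_, r0⟩
    have := rd_sq p
    simp only [XI, ip, Prod.smul_fst, Prod.smul_snd, smul_eq_mul] at this ⊢
    nlinarith [mul_pos M0 (pow_pos r0 2)]

lemma mf_sq (h : |a| < M) {r : ℝ} (h1 : rm M a < r) : mf M a r ^ 2 ≤ 1 + r := by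
  have m0 := rm_nn h
  have R0 := sub_pos.2 h1
  have p0 := rp_pos h
  have c1 : rm M a / (2 * rp M a) * 2 ≤ 1 := by
    rw [div_mul_eq_mul_div, div_le_one (by positivity)]; linarith [rm_lt h]
  rw [mf, ← Real.rpow_natCast, ← Real.rpow_mul R0.le, Nat.cast_ofNat]
  rcases le_total (r - rm M a) 1 with q | q
  · linarith [Real.rpow_le_one R0.le q (show 0 ≤ rm M a / (2 * rp M a) * 2 by positivity)]
  · linarith [Real.rpow_le_self_of_one_le q c1]

lemma box_sq (h : |a| < M) (h1 : rm M a < r1) (hp : p ∈ D0 M a r1)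
    (hb : p.1 + |kx M a p| ≤ 2 * θ * mf M a (kr M a p)) :
    p.1 ^ 2 + kx M a p ^ 2 ≤ 4 * θ ^ 2 * (1 + kr M a p) := by
  have k := pow_le_pow_left₀ (add_nonneg hp.2.1 (abs_nonneg _)) hb 2
  have := mul_le_mul_of_nonneg_left (mf_sq h (h1.trans hp.2.2)) (sq_nonneg θ)
  nlinarith [sq_abs (kx M a p), mul_nonneg hp.2.1 (abs_nonneg (kx M a p))]

variable {P : Pm} {d : Dat} {T : Tg}

lemma ch_mem (h : |P.a| < P.M) (h1 : rm P.M P.a < P.r1) (hp : p ∈ En P.M P.a P.r1 P.θ) :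
    ch P.M P.a σ p ∈ D0 P.M P.a P.r1 :=
  ⟨((isCh h σ).maps (h1.trans hp.1)).1.1, (ch_fst σ p).symm ▸ hp.2.2,
    ((isCh h σ).rad p (h1.trans hp.1)).symm ▸ hp.1⟩

theorem cls : CLS := fun M a r1 r0 r2 s δ B => by
  have h := B.lt
  have h1 := B.r1.1
  have p0 := rp_pos h
  obtain ⟨θ0, t0, hθ⟩ := P354YR.tm_box h h1
  obtain ⟨ε1, e1, H1⟩ := end_pt h ((rm_nn h).trans_lt h1)
  have hK : IsCompact ({p : R4 | xs p ≠ 0 ∧ |p.1| ≤ 1 + rp M a ∧ |kx M a p| ≤ 1 + rp M a} ∩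
      kr M a ⁻¹' Ici r1) := (P354YR.box_cpt h _).of_isClosed_subset
    (ContinuousOn.preimage_isClosed_of_isClosed (fun x hx =>
      (s_kr contDiffAt_id hx.1).continuousAt.continuousWithinAt) (P354YR.box_cpt h _).isClosed
        isClosed_Ici) inter_subset_left
  obtain ⟨ε2, e2, H2⟩ := hK.exists_forall_le' (a := 0) (f := fun p =>
    -gK M a p (XK M a p) (XK M a p) / (1 + ‖XK M a p‖ ^ 2)) (fun x hx => by
      have m : x ∈ DK M a := ⟨hx.1.1, h1.trans_le hx.2⟩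
      have c := P354YR.s_XK m
      exact ((P354YR.s_chr open_DK (gK_met h) m c c c).1.continuousAt.neg.div
        (continuousAt_const.add (c.continuousAt.norm.pow 2))
          (add_pos_of_pos_of_nonneg one_pos (sq_nonneg _)).ne').continuousWithinAt) fun x hx =>
    div_pos (neg_pos.2 ((gK_lor h).tl x ⟨hx.1.1, h1.trans_le hx.2⟩)) (by positivity)
  refine ⟨min θ0 (1 / 4), by positivity, fun θ hθ' => ⟨5 * M, fun R hR => ⟨0, fun N _ =>
    ⟨min ε1 ε2, by positivity, fun ε hε d T I => ?_⟩⟩⟩⟩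
  have l1 := hε.2.trans (min_le_left _ _)
  have l2 := hε.2.trans (min_le_right _ _)
  have l3 : ε ≤ 2 * ε := by linarith [hε.1]
  refine ⟨fun σ => (I.ends σ).par.1, fun σ p hp hr _ => ?_, fun p _ hp hb => ?_,
    fun σ p hp hr _ => ?_⟩
  · obtain ⟨n1, n2, -⟩ := (I.ends σ).near p hp (hr.trans (by linarith))
    have m := I.sub (ch_mem (σ := σ) h h1 hp)
    obtain ⟨k1, k2, k3, -⟩ := H1 ε l1 p _ hp.1.le (bd0 n2)
    refine ⟨P354YO.bd_mono n2 le_rfl l3, ?_⟩
    rw [← I.ori σ p hp]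
    refine cone (pb_bil (met_bil I.lor.met m)) (fun a b => I.lor.met.symm _ m _ _)
      (ContinuousLinearMap.fst ℝ ℝ _) k1 k3 n1 k2 ?_
    rw [pb, I.ori σ p hp]
    exact I.lor.tl _ m
  · have n := I.mid p hp hb
    have m := I.sub hp
    obtain ⟨b1, b2⟩ := I.box p ⟨hp, Or.inr hb⟩
    have t := (hθ θ (hθ'.2.le.trans (min_le_left _ _)) p ⟨hp, Or.inr hb⟩).2.1
    rw [fderiv_fst] at t
    refine ⟨P354YO.bd_mono n le_rfl l3, cone (met_bil I.lor.met m) (I.lor.met.symm _ m)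
      (ContinuousLinearMap.fst ℝ ℝ _) b2 t b1 ?_ (I.lor.tl _ m)⟩
    have k1 := box_sq h h1 hp hb
    have k2 : θ ^ 2 ≤ (1 / 4) ^ 2 :=
      pow_le_pow_left₀ hθ'.1.le (hθ'.2.le.trans (min_le_right _ _)) 2
    have k0 : 0 < 1 + kr M a p := by linarith [rm_nn h, hp.2.2]
    have k3 := mul_le_mul_of_nonneg_right k2 k0.le
    have k4 : kr M a p = rp M a + kx M a p ^ 2 - p.1 ^ 2 := rfl
    have k5 := (le_div_iff₀ (by positivity)).1 (H2 p ⟨⟨hp.1, abs_le_of_sq_le_sq
      (by nlinarith [sq_nonneg p.1, sq_nonneg (kx M a p)]) (by positivity), abs_le_of_sq_le_sq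
      (by nlinarith [sq_nonneg p.1, sq_nonneg (kx M a p)]) (by positivity)⟩, hp.2.2.le⟩)
    have k6 := (abs_le.1 (bd0 n (XK M a p))).2
    nlinarith [mul_le_mul_of_nonneg_right l2 (sq_nonneg ‖XK M a p‖)]
  · refine P354YI.bd_congr (P354YO.bd_mono ((I.ends σ).conv p hp (hr.trans hR)) le_rfl
      (mul_le_mul_of_nonneg_right l3 (by positivity))) ?_
    have c := (P354XA.linL (T.q σ)).continuous.continuousAt (x := p)
    filter_upwards [c.eventually (open_DI.mem_nhds (h1.trans hp.1))] with x hx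
    funext v w
    have e := fderiv_comp x (at_df ((isCh h σ).pull.smooth.contDiffAt (open_DI.mem_nhds hx)))
      (P354XA.linL (T.q σ)).differentiableAt
    exact congrArg (fun L : R4 →L[ℝ] R4 => T.g (cq M a σ (T.q σ) x) (L v) (L w) -
      gin (T.q σ).M (T.q σ).a x v w) e

theorem mono : MONO := fun M a r1 r0 r2 s δ B => by
  have h := B.lt
  obtain ⟨h1, h2, h3, h4⟩ := B.r1
  have q0 := (rm_nn h).trans_lt h1
  obtain ⟨ε1, e1, H1⟩ := end_pt h q0
  obtain ⟨c, c0, hc⟩ := near_r (M := M) (a := a) (r0 := r2) (by linarith) (by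
    rw [P354YR.Del_eq h]; exact mul_neg_of_neg_of_pos (sub_neg.2 h4) (by linarith))
  have z : 0 < (rp M a - r2) / (4 * (1 + r2)) := div_pos (sub_pos.2 h4) (by linarith)
  refine ⟨_, Real.sqrt_pos.2 z, fun θ hθ => ⟨r2, fun R hR => ⟨0, fun N _ =>
    ⟨min ε1 (1 / (2 * c)), by positivity, fun ε hε d T I => ?_⟩⟩⟩⟩
  have l2 := (le_div_iff₀ (by positivity)).1 (hε.2.trans (min_le_right _ _))
  have key : ∀ x ∈ D0 M a r1, kr M a x = r2 → ∀ w, Ft T.g T.Xf x w →
      fderiv ℝ (kr M a) x w < 0 := fun x hx e w hw => by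
    have k4 : kr M a x = rp M a + kx M a x ^ 2 - x.1 ^ 2 := rfl
    have b : 2 * θ * mf M a (kr M a x) < x.1 + |kx M a x| := lt_of_not_ge fun hb => by
      have k1 := box_sq h h1 hx hb
      have k2 := (lt_div_iff₀ (by linarith)).1 ((Real.lt_sqrt hθ.1.le).1 hθ.2)
      rw [e] at k1
      nlinarith [sq_nonneg (kx M a x)]
    have m0 := mf_pos (h1.trans hx.2.2)
    have t0 := mul_pos hθ.1 m0
    obtain ⟨σ, m, hσ⟩ : ∃ σ, x ∈ DE M a σ ∧ x.1 + |kx M a x| = kV M a (kap M a (ci M a σ x)) := by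
      rcases le_total 0 (kx M a x) with k | k
      · have m : x ∈ DE M a true := ⟨D0_sub h1.le hx, by
          rw [abs_of_nonneg k] at b; change 0 < x.1 + kx M a x; linarith⟩
        exact ⟨true, m, by rw [abs_of_nonneg k]; exact congrArg (kV M a) (P354YR.kap_kin h m).symm⟩
      · have m : x ∈ DE M a false := ⟨D0_sub h1.le hx, by
          rw [abs_of_nonpos k] at b; change 0 < x.1 - kx M a x; linarith⟩
        refine ⟨false, m, ?_⟩
        change _ = kV M a (kap M a (P354YR.kin M a (mir M a x)))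
        rw [P354YR.kap_kin h (P354YR.mir_DE h m), kV, P354YR.mir_kx h hx.1, abs_of_nonpos k]
        rfl
    have C := isCh h σ
    have m1 := C.back.maps m
    have e1 := C.right x m
    have e2 := C.rad _ m1
    generalize ci M a σ x = p at *
    subst e1
    rw [P354YR.kap_V h m1, P354YR.pV, ← e2] at hσ
    have hp : p ∈ En M a r1 θ := ⟨e2 ▸ hx.2.2, le_of_mul_le_mul_left (by linarith) m0,
      ch_fst (M := M) (a := a) σ p ▸ hx.2.1⟩
    obtain ⟨w, rfl⟩ := surj_of_inj (C.pull.inj _ m1) w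
    obtain ⟨n1, n2, -⟩ := (I.ends σ).near p hp (by change rd p ≤ R + 2; linarith)
    have m2 := I.sub hx
    obtain ⟨k1, k2, k3, k5⟩ := H1 ε (hε.2.trans (min_le_left _ _)) p _ hp.1.le (bd0 n2)
    have bi := pb_bil (met_bil I.lor.met m2)
    have sy : ∀ a' b, pb (ch M a σ) T.g p a' b = pb (ch M a σ) T.g p b a' :=
      fun _ _ => I.lor.met.symm _ m2 _ _
    have o := I.ori σ p hp
    have w1 := pos_of_ker bi sy (ContinuousLinearMap.fst ℝ ℝ _) k1 n1
      (by rw [pb, o]; exact (I.lor.tl _ m2).le) hw.1.le (by rw [pb, o]; exact hw.2)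
    have r0 := (q0.trans hp.1).ne'
    have := pos_of_ker bi sy (-fderiv ℝ rd p) (fun v v0 hv => by
      have j1 := hc p (e2.symm.trans e) v (by simpa [rd_fd r0] using hv)
      have j2 := (abs_le.1 (bd0 n2 v)).1
      have j3 : 0 < ‖v‖ ^ 2 := pow_pos (norm_pos_iff.2 v0) 2
      refine pos_of_mul_pos_left (b := c) ?_ c0.le
      nlinarith [mul_le_mul_of_nonneg_left j2 c0.le]) (by simpa [rd_fd r0] using k5) k2.le hw.1.le
      (cone bi sy (ContinuousLinearMap.fst ℝ ℝ _) k1 w1 k3 hw.1 k2)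
    have ev : kr M a ∘ ch M a σ =ᶠ[𝓝 p] rd := mem_of_superset (open_DI.mem_nhds m1) C.rad
    rw [← ev.fderiv_eq, fderiv_comp p (g := kr M a) (f := ch M a σ)
      (at_df (s_kr contDiffAt_id hx.1)) (at_df (C.pull.smooth.contDiffAt (open_DI.mem_nhds m1)))] at this
    simpa using this
  intro x x' H
  induction H using Relation.ReflTransGen.head_induction_on with
  | refl => exact id
  | head k _ ih =>
    intro hx
    obtain ⟨γ, rfl, rfl, hγ⟩ := k
    have D : ∀ t ∈ Icc (0 : ℝ) 1, HasDerivAt (fun t => kr M a (γ t))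
        (fderiv ℝ (kr M a) (γ t) (deriv γ t)) t := fun t ht =>
      (at_df (s_kr contDiffAt_id (hγ t ht).1.1)).hasFDerivAt.comp_hasDerivAt t
        (hγ t ht).2.1.hasDerivAt
    refine lt_of_not_ge fun k => (ih hx).not_ge (image_le_of_deriv_right_lt_deriv_boundary
      (fun t ht => (D t ht).continuousAt.continuousWithinAt)
      (fun t ht => (D t (Ico_subset_Icc_self ht)).hasDerivWithinAt) (B := fun _ => r2) k
      (fun t => hasDerivAt_const t r2) (fun t ht e => ?_) ⟨zero_le_one, le_rfl⟩)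
    exact key _ (hγ t (Ico_subset_Icc_self ht)).1 e _ (hγ t (Ico_subset_Icc_self ht)).2.2

end Vale.Agent.P354YJ
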