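import Vale.Agent.P354I.Core2
import Vale.Agent.P354J.Uq

/-!
Phase 3, blocks SW and ROT: the initial values of the reflected slice, and the rotation of the
angular frame to the symmetric one. Definitions and exact statements.
-/

open scoped ContDiff
open Set

noncomputable section

namespace Vale.Agent.P354YJ

open Vale.Agent.P354H (X3 pd pdl)
open Vale.Agent.P354C Vale.Agent.P354C.Ix
open Vale.Agent.P354I (X Dat Con Cyl)
open Vale.Agent.P354J (M3 PD PDy Ud U0 Ind dsl TT)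
open Vale.Agent.P354D (IsKick)

/-! ### The reflection -/

/-- The exchange of l and n. -/
def sw (U : Ix → ℝ) : Ix → ℝ
  | .b1 => -U b1
  | .b2 => -U b2
  | .om => U omb
  | .p1 => U q1
  | .p2 => U q2
  | .omb => U om
  | .q1 => U p1
  | .q2 => U p2
  | .r0 => -U r0
  | .A1 => U B1
  | .A2 => U B2
  | .X11 => U Y11
  | .X12 => U Y12
  | .X21 => U Y21
  | .X22 => U Y22
  | .B1 => U A1
  | .B2 => U A2
  | .Y11 => U X11
  | .Y12 => U X12
  | .Y21 => U X21
  | .Y22 => U X22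
  | .a1 => U ab1
  | .a2 => U ab2
  | .be1 => -U bb1
  | .be2 => -U bb2
  | .sig => -U sig
  | .bb1 => -U be1
  | .bb2 => -U be2
  | .ab1 => U a1
  | .ab2 => U a2
  | i => U i

/-- The reflection x ↦ -x in the charts and on the cylinder, and its matrix. -/
def ng (z : X3) : X3 := (-z.1, z.2)
def iv (y : X) : X := (‖y‖ ^ 2)⁻¹ • y
def Sn : M3 := !![-1, 0, 0; 0, 1, 0; 0, 0, 1]

/-- SW. -/
def SW : Prop :=
  (∃ B, Cyl B iv iv) ∧
  (∀ (u : X3 → Ix → ℝ) (z : X3) (h K : M3), (Constr (u (ng z)) (dsl u (ng z)) →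
    Constr (sw (u (ng z))) (dsl (fun y => sw (u (ng y))) z)) ∧
    (Ind (u z) h K → Ind (sw (u z)) (Sn * h * Sn) (Sn * K * Sn))) ∧
  (∀ d σ z, PDy d → Con d → Ud (d.pull iv) σ z = sw (Ud d σ (ng z))) ∧
  ∀ b Λ R A u u', IsKick b Λ R A u u' →
    IsKick (!b) Λ R A (fun z => sw (u (ng z))) (fun z => sw (u' (ng z)))

/-! ### The rotation -/

/-- The unknowns in the frame e2' = c e2 + s e3, e3' = - s e2 + c e3; f r is the derivative of
the angle along l - n, e2, e3. -/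
def rot (c s : ℝ) (f : Fin 3 → ℝ) (U : Ix → ℝ) : Ix → ℝ
  | .P11 => c * U P11 + s * U P21
  | .P12 => c * U P12 + s * U P22
  | .P21 => c * U P21 - s * U P11
  | .P22 => c * U P22 - s * U P12
  | .p1 => c * U p1 + s * U p2
  | .p2 => c * U p2 - s * U p1
  | .q1 => c * U q1 + s * U q2
  | .q2 => c * U q2 - s * U q1
  | .r0 => U r0 + f 0
  | .r1 => c * (U r1 + f 1) + s * (U r2 + f 2)
  | .r2 => c * (U r2 + f 2) - s * (U r1 + f 1)
  | .A1 => c * U A1 + s * U A2
  | .A2 => c * U A2 - s * U A1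
  | .X11 => c * (c * U X11 + s * U X12) + s * (c * U X21 + s * U X22)
  | .X12 => c * (c * U X12 - s * U X11) + s * (c * U X22 - s * U X21)
  | .X21 => c * (c * U X21 + s * U X22) - s * (c * U X11 + s * U X12)
  | .X22 => c * (c * U X22 - s * U X21) - s * (c * U X12 - s * U X11)
  | .B1 => c * U B1 + s * U B2
  | .B2 => c * U B2 - s * U B1
  | .Y11 => c * (c * U Y11 + s * U Y12) + s * (c * U Y21 + s * U Y22)
  | .Y12 => c * (c * U Y12 - s * U Y11) + s * (c * U Y22 - s * U Y21)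
  | .Y21 => c * (c * U Y21 + s * U Y22) - s * (c * U Y11 + s * U Y12)
  | .Y22 => c * (c * U Y22 - s * U Y21) - s * (c * U Y12 - s * U Y11)
  | .a1 => (c * c - s * s) * U a1 + 2 * (c * s) * U a2
  | .a2 => (c * c - s * s) * U a2 - 2 * (c * s) * U a1
  | .be1 => c * U be1 + s * U be2
  | .be2 => c * U be2 - s * U be1
  | .bb1 => c * U bb1 + s * U bb2
  | .bb2 => c * U bb2 - s * U bb1
  | .ab1 => (c * c - s * s) * U ab1 + 2 * (c * s) * U ab2
  | .ab2 => (c * c - s * s) * U ab2 - 2 * (c * s) * U ab1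
  | i => U i

/-- The angle which makes P symmetric with positive trace. -/
def al (U : Ix → ℝ) : ℝ := U P11 + U P22
def be (U : Ix → ℝ) : ℝ := U P21 - U P12
def nn (U : Ix → ℝ) : ℝ := al U ^ 2 + be U ^ 2
def cs (U : Ix → ℝ) : ℝ := al U / √(nn U)
def sn (U : Ix → ℝ) : ℝ := be U / √(nn U)

/-- The derivative of the angle, when the derivative of U is D. -/
def da (U D : Ix → ℝ) : ℝ := (al U * be D - be U * al D) / nn U

/-- The derivatives along e2 and e3 from the derivatives D1, D2 in y1, y2, and the derivative of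
P along l - n from the equation for the torsion. -/
def e2 (U D1 D2 : Ix → ℝ) (i : Ix) : ℝ := U P11 * D1 i + U P12 * D2 i
def e3 (U D1 D2 : Ix → ℝ) (i : Ix) : ℝ := U P21 * D1 i + U P22 * D2 i
def d0 (U D1 D2 : Ix → ℝ) : Ix → ℝ
  | .P11 => e2 U D1 D2 b1 + TT U 0 1 2 * U P11 + TT U 0 1 3 * U P21
  | .P12 => e2 U D1 D2 b2 + TT U 0 1 2 * U P12 + TT U 0 1 3 * U P22
  | .P21 => e3 U D1 D2 b1 + TT U 0 2 2 * U P11 + TT U 0 2 3 * U P21
  | .P22 => e3 U D1 D2 b2 + TT U 0 2 2 * U P12 + TT U 0 2 3 * U P22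
  | _ => 0

/-- The unknowns in the symmetric frame. -/
def Rt (U D1 D2 : Ix → ℝ) : Ix → ℝ :=
  rot (cs U) (sn U) ![da U (d0 U D1 D2), da U (e2 U D1 D2), da U (e3 U D1 D2)] U
def RT (u : X3 → Ix → ℝ) (z : X3) : Ix → ℝ :=
  Rt (u z) (fun i => pd 1 (fun y => u y i) z) (fun i => pd 2 (fun y => u y i) z)

/-- ROT: the initial values of the induced data. -/
def ROT : Prop :=
  ∀ (h K : X3 → M3) (u : X3 → Ix → ℝ) (D : Set X3), PD h K → IsOpen D →
    (∀ i, ContDiffOn ℝ ∞ (fun y => u y i) D) →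
    (∀ y ∈ D, 0 < u y O ∧ 0 < detP (u y) ∧ Ind (u y) (h y) (K y) ∧ Constr (u y) (dsl u y)) →
    ∀ y ∈ D, U0 h K y = RT u y

/-- The angular derivatives of order at most m at z are at most c. -/
def Ab (m : ℕ) (f : X3 → ℝ) (z : X3) (c : ℝ) : Prop :=
  ∀ α : List (Fin 3), α.length ≤ m → (0 : Fin 3) ∉ α → |pdl α f z| ≤ c

/-- ROTL: the rotation is Lipschitz for the angular derivatives, with the loss of one
derivative; the component of the curvature which is kicked only sees the change of P. -/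
def ROTL : Prop :=
  ∀ (m : ℕ) (c0 B : ℝ), 0 < c0 → ∃ C ≥ 0, ∀ (u u' : X3 → Ix → ℝ) (z : X3) (ε : ℝ),
    (∀ i, ContDiffAt ℝ ∞ (fun y => u y i) z ∧ ContDiffAt ℝ ∞ (fun y => u' y i) z) →
    c0 ≤ detP (u z) → c0 ≤ detP (u' z) →
    (∀ i, Ab (m + 1) (fun y => u y i) z B ∧ Ab (m + 1) (fun y => u' y i) z B ∧
      Ab (m + 1) (fun y => u' y i - u y i) z ε) →
    (∀ i, Ab m (fun y => RT u y i) z C ∧ Ab m (fun y => RT u' y i - RT u y i) z (C * ε)) ∧
    ∀ η, (∀ i ∈ [P11, P12, P21, P22], |u' z i - u z i| ≤ η) → ∀ i ∈ [a1, a2, ab1, ab2],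
      |RT u' z i - RT u z i - rot (cs (u z)) (sn (u z)) 0 (u' z - u z) i| ≤ C * η

end Vale.Agent.P354YJ
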