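import Vale.Agent.P354YJ.Defs
import Vale.Agent.P354PU.Pull1
import Vale.Agent.P354ST.Fam

/-!
SW: the initial values of the reflected slice.
-/

open scoped ContDiff
open Set Filter Topology Matrix

noncomputable section

namespace Vale.Agent.P354YJ

open Vale.Agent.P354H (X3 pd pdl e)
open Vale.Agent.P354C Vale.Agent.P354C.Ix
open Vale.Agent.P354I (X Dat Con Cyl Cy1 r2)
open Vale.Agent.P354J
open Vale.Agent.P354D (IsKick sgn cpt)

/-! ### The inversion -/

lemma norm_iv {y : X} (hy : y ≠ 0) : ‖iv y‖ = ‖y‖⁻¹ := by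
  have := norm_pos_iff.2 hy
  rw [iv, norm_smul, Real.norm_of_nonneg (by positivity)]
  field_simp

lemma iv_ne {y : X} (hy : y ≠ 0) : iv y ≠ 0 :=
  norm_pos_iff.1 (by rw [norm_iv hy]; exact inv_pos.2 (norm_pos_iff.2 hy))

lemma iv_iv {y : X} (hy : y ≠ 0) : iv (iv y) = y := by
  have := norm_pos_iff.2 hy
  rw [iv, norm_iv hy, iv, smul_smul, inv_pow, inv_inv, mul_inv_cancel₀ (by positivity), one_smul]

lemma iv_sm {y : X} (hy : y ≠ 0) : ContDiffAt ℝ ∞ iv y :=
  ((contDiff_norm_sq ℝ).contDiffAt.inv (pow_ne_zero 2 (norm_ne_zero_iff.2 hy))).smul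
    contDiffAt_id

lemma iv_smul {τ : ℝ} (hτ : 0 < τ) (y : X) : iv (τ • y) = τ⁻¹ • iv y := by
  rw [iv, iv, norm_smul, Real.norm_of_nonneg hτ.le, smul_smul, smul_smul, mul_pow, mul_inv]
  congr 1
  field_simp

lemma iv_cy : ∃ B, Cy1 B iv := by
  have key : ∀ j : ℕ, ∃ b, 1 ≤ b ∧ ∀ y ∈ Metric.sphere (0 : X) 1, ‖iteratedFDeriv ℝ j iv y‖ ≤ b := by
    intro j
    have hc : ContinuousOn (iteratedFDeriv ℝ j iv) (Metric.sphere (0 : X) 1) := fun y hy =>
      ((iv_sm (Metric.ne_of_mem_sphere hy one_ne_zero)).continuousAt_iteratedFDeriv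
        (by exact_mod_cast le_top)).continuousWithinAt
    obtain ⟨b, hb⟩ := (isCompact_sphere (0 : X) 1).exists_bound_of_continuousOn hc
    exact ⟨max 1 b, le_max_left _ _, fun y hy => (hb y hy).trans (le_max_right _ _)⟩
  choose B B1 hB using key
  refine ⟨B, fun y hy => (iv_sm hy).contDiffWithinAt, fun y hy => iv_ne hy, fun j y hy => ?_,
    fun y hy => ?_⟩
  · have h0 := inv_pos.2 (norm_pos_iff.2 hy)
    have h1 : ‖‖y‖⁻¹ • y‖ = 1 := norm_smul_inv_norm hy
    refine P354ST.hom_bd j h0 (inv_pos.2 h0) (iv_sm hy)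
      (Eventually.of_forall fun z => iv_smul h0 z) ?_
    rw [norm_iv (norm_pos_iff.1 (by rw [h1]; exact one_pos)), h1, one_pow, one_mul, inv_one,
      mul_one]
    exact hB j _ (mem_sphere_zero_iff_norm.2 h1)
  · rw [norm_iv hy, Real.log_inv, neg_sq]
    exact le_mul_of_one_le_left (by positivity) (B1 0)

lemma iv_cyl : ∃ B, Cyl B iv iv :=
  iv_cy.imp fun _ h => ⟨h, h, fun _ hy => ⟨iv_iv hy, iv_iv hy⟩⟩

/-! ### Derivatives -/

/-- The signs of the reflection. -/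
def sx : Fin 3 → ℝ := ![-1, 1, 1]

/-- The reflection as a linear equivalence. -/
def ngL : X3 ≃L[ℝ] X3 := (ContinuousLinearEquiv.neg ℝ).prodCongr (ContinuousLinearEquiv.refl ℝ _)

lemma pd_ng (c : ℝ) (f : X3 → ℝ) (j : Fin 3) (z : X3) :
    pd j (fun y => c * f (ng y)) z = c * (sx j * pd j f (ng z)) := by
  have h1 : fderiv ℝ (fun y => c * f (ng y)) z = c • fderiv ℝ (f ∘ ngL) z :=
    congrFun (fderiv_const_smul_field (𝕜 := ℝ) (f := f ∘ ngL) c) z
  have h2 : ngL (e j) = sx j • e j := by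
    fin_cases j <;> simp [ngL, sx, e]
  unfold pd
  rw [h1, ngL.comp_right_fderiv]
  show c * fderiv ℝ f (ng z) (ngL (e j)) = _
  rw [h2, map_smul, smul_eq_mul]

lemma pdl_ng (c : ℝ) (α : List (Fin 3)) (h : (0 : Fin 3) ∉ α) (f : X3 → ℝ) (z : X3) :
    pdl α (fun y => c * f (ng y)) z = c * pdl α f (ng z) := by
  induction α generalizing f with
  | nil => rfl
  | cons j α ih =>
    have h1 : sx j = 1 := by
      fin_cases j
      · exact absurd List.mem_cons_self h
      · rfl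
      · rfl
    show pdl α (pd j fun y => c * f (ng y)) z = c * pdl α (pd j f) (ng z)
    rw [← ih fun k => h (List.mem_cons_of_mem _ k)]
    congr 1
    funext y
    rw [pd_ng, h1, one_mul]

/-- The exchange of the indices and its sign. -/
def si : Ix → Ix
  | .om => omb
  | .p1 => q1
  | .p2 => q2
  | .omb => .om
  | .q1 => p1
  | .q2 => p2
  | .A1 => B1
  | .A2 => B2
  | .X11 => Y11
  | .X12 => Y12
  | .X21 => Y21
  | .X22 => Y22
  | .B1 => A1
  | .B2 => A2
  | .Y11 => X11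
  | .Y12 => X12
  | .Y21 => X21
  | .Y22 => X22
  | .a1 => ab1
  | .a2 => ab2
  | .be1 => bb1
  | .be2 => bb2
  | .bb1 => be1
  | .bb2 => be2
  | .ab1 => a1
  | .ab2 => a2
  | i => i
def sj : Ix → ℝ
  | .b1 | .b2 | .r0 | .be1 | .be2 | .sig | .bb1 | .bb2 => -1
  | _ => 1

lemma sw_eq (U : Ix → ℝ) (i : Ix) : sw U i = sj i * U (si i) := by
  cases i <;> simp [sw, sj, si]

lemma abs_sj (i : Ix) : |sj i| = 1 := by
  cases i <;> simp [sj]

lemma DT_sw (u : X3 → Ix → ℝ) (z : X3) (s : Fin 3) :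
    DT (dsl (fun y => sw (u (ng y))) z) s = sx s • sw (DT (dsl u (ng z)) s) := by
  funext i
  simp only [DT_dsl, Pi.smul_apply, smul_eq_mul, fd, sw_eq, Fin.sum_univ_three,
    pd_ng (sj i) fun y => u y (si i)]
  fin_cases s <;> simp [Eu, sx, sw] <;> ring

/-! ### The constraints -/

/-- The exchange of the first two frame indices. -/
def sp : Fin 4 → Fin 4 := ![1, 0, 2, 3]

lemma GT_sw (c : ℝ) (U : Ix → ℝ) (s : Fin 3) (j k : Fin 4) :
    GT (c • sw U) s j k = c * (sx s * GT U s (sp j) (sp k)) := by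
  fin_cases s
  · simp only [Fin.zero_eta, GT_0]
    fin_cases j <;> fin_cases k <;> simp [sx, sp, sw] <;> ring
  · simp only [Fin.mk_one, GT_1]
    fin_cases j <;> fin_cases k <;> simp [sx, sp, sw] <;> ring
  · simp only [Fin.reduceFinMk, GT_2]
    fin_cases j <;> fin_cases k <;> simp [sx, sp, sw] <;> ring

lemma GT_sw' (U : Ix → ℝ) (s : Fin 3) (j k : Fin 4) :
    GT (sw U) s j k = sx s * GT U s (sp j) (sp k) := by
  have := GT_sw 1 U s j k
  rwa [one_smul, one_mul] at this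

lemma sum_sp (f : Fin 4 → ℝ) : ∑ m, f (sp m) = ∑ m, f m := by
  simp [sp, Fin.sum_univ_four, add_comm]

lemma TT_sw (U : Ix → ℝ) (s t : Fin 3) (m : Fin 4) :
    TT (sw U) s t m = sx s * sx t * TT U s t (sp m) := by
  have k : ∀ s t, ∑ y, tang t y * GT (sw U) s m y =
      sx s * sx t * ∑ y, tang t y * GT U s (sp m) y := by
    intro s t
    simp only [GT_sw']
    fin_cases t <;> simp [tang, sx, sp, Fin.sum_univ_four]
    ring
  unfold TT
  rw [k, k]
  ring

lemma WT_sw (U : Ix → ℝ) (s t : Fin 3) (j k : Fin 4) :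
    WT (sw U) s t j k = sx s * sx t * WT U s t (sp j) (sp k) := by
  have w01 : WT (sw U) 0 1 j k = sx 0 * sx 1 * WT U 0 1 (sp j) (sp k) := by
    rw [WT_01, WT_01]
    fin_cases j <;> fin_cases k <;> simp [sx, sp, sw] <;> ring
  have w02 : WT (sw U) 0 2 j k = sx 0 * sx 2 * WT U 0 2 (sp j) (sp k) := by
    rw [WT_02, WT_02]
    fin_cases j <;> fin_cases k <;> simp [sx, sp, sw] <;> ring
  have w12 : WT (sw U) 1 2 j k = sx 1 * sx 2 * WT U 1 2 (sp j) (sp k) := by
    rw [WT_12, WT_12]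
    fin_cases j <;> fin_cases k <;> simp [sx, sp, sw]
  have sw' : ∀ s t, WT (sw U) s t j k = sx s * sx t * WT U s t (sp j) (sp k) →
      WT (sw U) t s j k = sx t * sx s * WT U t s (sp j) (sp k) := by
    intro s t h
    rw [WT_swap, WT_swap U s t, Matrix.neg_apply, Matrix.neg_apply, h]
    ring
  have sf : ∀ s, WT (sw U) s s j k = sx s * sx s * WT U s s (sp j) (sp k) := by
    intro s
    rw [WT_self, WT_self, Matrix.zero_apply, Matrix.zero_apply, mul_zero]
  fin_cases s <;> fin_cases t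
  exacts [sf 0, w01, w02, sw' _ _ w01, sf 1, w12, sw' _ _ w02, sw' _ _ w12, sf 2]

lemma TT_01 {U : Ix → ℝ} {d : Fin 3 → Ix → ℝ} (h : Con1 U d) (s t : Fin 3) :
    TT U s t 0 = 0 ∧ TT U s t 1 = 0 := by
  have e0 := h.1 s t 0
  have e1 := h.1 s t 1
  have k : ∀ V t, Eu' V t 0 = 0 := fun V t => by fin_cases t <;> simp [Eu']
  simp [E, up, Fin.sum_univ_four, k] at e0 e1
  constructor <;> linarith

lemma con1_sw {U : Ix → ℝ} {d : Fin 3 → Ix → ℝ} (h : Con1 U d) :
    Con1 (sw U) fun s => sx s • sw (d s) := by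
  refine ⟨fun s t μ => ?_, fun s => ?_⟩
  · obtain ⟨t0, t1⟩ := TT_01 h s t
    have k : ∀ (c : ℝ) V t j, Eu' (c • sw V) t j = c * (sx t * Eu' V t j) := fun c V t j => by
      fin_cases t <;> fin_cases j <;> simp [Eu', sx, sw] <;> ring
    have e := h.1 s t μ
    simp only [TT_sw, k]
    fin_cases μ <;> simp [E, up, sp, sw, Fin.sum_univ_four, t0, t1] at e ⊢ <;>
      linear_combination sx s * sx t * e
  · have k : sgT (sw U) s = sx s * sgT U s := by
      fin_cases s <;> simp [sgT, sx, sw, add_comm]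
    show sx s * d s O = U O * _
    rw [h.2 s, k]
    ring

lemma constr_sw {U : Ix → ℝ} {dU dU' : Fin 4 → Ix → ℝ} (h : Constr U dU)
    (hd : ∀ s, DT dU' s = sx s • sw (DT dU s)) : Constr (sw U) dU' := by
  obtain ⟨h1, h2⟩ := (constr_iff _ _).1 h
  refine (constr_iff _ _).2 ⟨funext hd ▸ con1_sw h1, fun s t j k => ?_⟩
  obtain ⟨t0, t1⟩ := TT_01 h1 s t
  have e := h2 s t (sp j) (sp k)
  have g : ∀ V j k, Gam V 2 j k = GT V 1 j k ∧ Gam V 3 j k = GT V 2 j k := fun V j k => by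
    simp [GT, tang, Fin.sum_univ_four]
  rw [curT_eq] at e ⊢
  simp only [Matrix.sub_apply, Matrix.mul_apply] at e ⊢
  rw [← sum_sp fun m => GT U s (sp j) m * GT U t m (sp k),
    ← sum_sp fun m => GT U t (sp j) m * GT U s m (sp k)] at e
  simp only [hd, GT_sw, GT_sw', WT_sw, TT_sw, Fin.sum_univ_four, (g _ _ _).1, (g _ _ _).2,
    show sp 0 = 1 from rfl, show sp 1 = 0 from rfl, show sp 2 = 2 from rfl,
    show sp 3 = 3 from rfl, show sx 1 = 1 from rfl, show sx 2 = 1 from rfl, t0, t1] at e ⊢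
  linear_combination sx s * sx t * e

lemma Sn_conj (h : M3) (a b : Fin 3) : (Sn * h * Sn) a b = sx a * sx b * h a b := by
  simp only [Matrix.mul_apply, Fin.sum_univ_three]
  fin_cases a <;> fin_cases b <;> simp [Sn, sx]

lemma ind_sw {U : Ix → ℝ} {h K : M3} (H : Ind U h K) :
    Ind (sw U) (Sn * h * Sn) (Sn * K * Sn) := by
  have c : ∀ a b, Cu (sw U) a b = sx a * sx b * Cu U a b := fun a b => by
    have hd : detP (sw U) = detP U := rfl
    fin_cases a <;> fin_cases b <;> simp [Cu, th, e, hd, sw, sx] <;> ring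
  have k : ∀ a b, kap (sw U) a b = sx a * sx b * kap U a b := fun a b => by
    fin_cases a <;> fin_cases b <;> simp [kap, sw, sx] <;> ring
  intro a b
  rw [Sn_conj, Sn_conj, ← (H a b).1, ← (H a b).2, hf_eq, hf_eq, Kf_eq, Kf_eq]
  simp only [Matrix.mul_apply, transpose_apply, c, k, Fin.sum_univ_three, show sw U O = U O from rfl,
    show sx 0 = -1 from rfl, show sx 1 = 1 from rfl, show sx 2 = 1 from rfl]
  constructor <;> ring

/-! ### The data -/

lemma iv_phi (σ : Bool) (z : X3) : iv (Phi σ z) = Phi σ (ng z) := by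
  rw [iv, P354JK.norm_phi, Phi, Phi, smul_smul]
  congr 1
  show _ = Real.exp (-z.1)
  rw [Real.exp_neg]
  field_simp

lemma pg_iv (σ : Bool) (F : X → M3) (z : X3) :
    P354PU.pg (fun w => iv (Phi σ w)) F z = Sn * pb σ F (ng z) * Sn := by
  have k : ∀ a i, P354PU.JG (fun w => Phi σ (ng w)) z a i = sx a * Jm σ (ng z) a i := fun a i => by
    have := pd_ng 1 (fun w => Phi σ w i) a z
    simp only [one_mul] at this
    exact this
  ext a b
  rw [Sn_conj]
  simp only [P354PU.pg, pb, iv_phi, Matrix.mul_apply, transpose_apply, k, Fin.sum_univ_three]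
  ring

lemma ud_iv (d : Dat) (σ : Bool) (z : X3) (D : PDy d) (c : Con d) :
    Ud (d.pull iv) σ z = sw (Ud d σ (ng z)) := by
  obtain ⟨B, h⟩ := iv_cyl
  have e1 : ∀ z, pb σ (d.pull iv).h z = Sn * pb σ d.h (ng z) * Sn := fun z => by
    rw [← pg_iv]
    simp only [pb, P354PU.pg, P354PU.JG_comp h.l, P354PU.pull_h, transpose_mul, mul_assoc]
  have e2 : ∀ z, pb σ (d.pull iv).K z = Sn * pb σ d.K (ng z) * Sn := fun z => by
    rw [← pg_iv]
    simp only [pb, P354PU.pg, P354PU.JG_comp h.l, P354PU.pull_K, transpose_mul, mul_assoc]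
  refine (cv _ _ ((P354PU.pdy_pull h D).toPD σ) (fun y => sw (Ud d σ (ng y))) univ isOpen_univ
    (fun y _ => ?_) z (mem_univ z)).1.symm
  obtain ⟨s1, s2, s3, s4, s5, s6⟩ := (sl1 _ _ (D.toPD σ)).2 (ng y)
  refine ⟨s1, s2, s3, s4, ?_, constr_sw (s6.1 (((sl2 d σ D).2 _).2 (c _ (phi_ne σ _))))
    (DT_sw (Ud d σ) y)⟩
  rw [e1, e2]
  exact ind_sw s5

lemma kick_sw {b : Bool} {Λ R A : ℝ} {u u' : X3 → Ix → ℝ} (h : IsKick b Λ R A u u') :
    IsKick (!b) Λ R A (fun z => sw (u (ng z))) (fun z => sw (u' (ng z))) := by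
  have k : ∀ z : X3, sgn (!b) * z.1 = sgn b * (ng z).1 := fun z => by
    cases b <;> simp [sgn, ng]
  refine ⟨fun z hz => ?_, fun i α h1 h2 z h3 h4 => ?_, ?_⟩
  · rw [h.zero (ng z) (k z ▸ hz)]
  · simp only [sw_eq, ← mul_sub]
    rw [pdl_ng (sj i) α h2 fun y => u' y (si i) - u y (si i), abs_mul, abs_sj, one_mul]
    exact h.bound _ α h1 h2 (ng z) (k z ▸ h3) h4
  · have := h.low
    cases b <;> simpa [sgn, cpt, ng, sw] using this

/-- **SW.** -/
theorem sw_ok : SW :=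
  ⟨iv_cyl, fun u z _ _ => ⟨fun h => constr_sw h (DT_sw u z), ind_sw⟩, ud_iv,
    fun _ _ _ _ _ _ => kick_sw⟩

end Vale.Agent.P354YJ
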