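import Vale.Agent.P354XE.Defs
import Vale.Agent.P354RG.Defs

/-!
Phase 3, block JP: the embedding of the double null chart of the Kerr interior into the ingoing
charts of the two ends. Definitions and exact statements.
-/

open scoped ContDiff
open Set

noncomputable section

namespace Vale.Agent.P354YJ

open Vale.Agent.P354n (R4)
open Vale.Agent.P354I (X P3 IsKF rm rp)
open Vale.Agent.P354R (Met Vac Pull bg omm)
open Vale.Agent.P354RG (Y3 IsG Fx gs gz zh kd)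
open Vale.Agent.P354XE (xs pt rd gin ka kp mir cyl Ind)
open Vale.Agent.P354D (sgn)

/-- The differences t - t_BL and φ - φ_BL between the ingoing and the Boyer-Lindquist
coordinates, between the horizons. -/
def hT (M a r : ℝ) : ℝ :=
  (Real.log (rp M a - r) - rm M a / rp M a * Real.log (r - rm M a)) / (2 * ka M a)
def hP (M a r : ℝ) : ℝ :=
  a / (rp M a - rm M a) * (Real.log (rp M a - r) - Real.log (r - rm M a))

/-- The rotation about the axis. -/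
def rz (c : ℝ) (z : X) : X :=
  !₂[Real.cos c * z 0 - Real.sin c * z 1, Real.sin c * z 0 + Real.cos c * z 1, z 2]

/-- The black hole region in ingoing coordinates, and the ingoing principal null field. -/
def Bh (M a : ℝ) : Set R4 := {p | rm M a < rd p ∧ rd p < rp M a}
def n0 (p : R4) : R4 := (1, -(rd p)⁻¹ • p.2)

/-- For w = (τ, y): the arguments (p, exp (- k τ), cos θ), the Boyer-Lindquist time, the angle
φ_BL - φ, and the direction before this rotation. H 0 = r, H 1 = cos θ_BL,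
H 2 = sin θ_BL / sin θ. -/
def ar (k : ℝ) (p : P3) (w : R4) : Y3 := (p, Real.exp (-k * w.1), zh (xs w))
def tb (k : ℝ) (p : P3) (w : R4) : ℝ := k / P354R.kap p.1 p.2.1 * Real.log (rd w)
def ph (k : ℝ) (H : ℕ → Y3 → ℝ) (p : P3) (w : R4) : ℝ :=
  omm p.1 p.2.1 * tb k p w - H 3 (ar k p w)
def dir (k : ℝ) (H : ℕ → Y3 → ℝ) (b : Bool) (p : P3) (w : R4) : X :=
  !₂[H 2 (ar k p w) * w.2.1 / rd w, sgn b * (H 2 (ar k p w) * w.2.2.1 / rd w), H 1 (ar k p w)]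

/-- The embedding into the ingoing chart of the right end (b = true) and of the left end. -/
def JJ (k : ℝ) (H : ℕ → Y3 → ℝ) (b : Bool) (p : P3) (w : R4) : R4 :=
  pt (sgn b * tb k p w + hT p.1 p.2.1 (H 0 (ar k p w)))
    (H 0 (ar k p w) • rz (sgn b * ph k H p w + hP p.1 p.2.1 (H 0 (ar k p w))) (dir k H b p w))

/-- The slice of the time t. -/
def Js (k : ℝ) (H : ℕ → Y3 → ℝ) (b : Bool) (p : P3) (t : ℝ) (y : X) : R4 := JJ k H b p (pt t y)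

/-- The chart σ of the cylinder, with the time counted from t. -/
def cy (σ : Bool) (t : ℝ) (w : R4) : R4 := pt (t + w.1) (P354J.Phi σ w.2)

/-- The radial potential of the null geodesics. -/
def QQ (M a r ζ : ℝ) : ℝ := (r ^ 2 + a ^ 2) ^ 2 - a ^ 2 * (1 - ζ ^ 2) * P354R.Del M a r

/-- The equations of the characteristics; H 5 is the momentum conjugate to cos θ_BL. -/
def HO (H : ℕ → Y3 → ℝ) (x : Y3) : Prop :=
  0 < QQ x.1.1 x.1.2.1 (H 0 x) x.2.2 ∧ 0 < QQ x.1.1 x.1.2.1 (H 0 x) (H 1 x) ∧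
  H 2 x ^ 2 * (H 5 x ^ 2 + x.1.2.1 ^ 2) = x.1.2.1 ^ 2 ∧ H 5 (x.1, 1, x.2.2) = 0 ∧
  P354R.kap x.1.1 x.1.2.1 * x.2.1 * gs (H 3) x = omm x.1.1 x.1.2.1 -
    2 * x.1.1 * x.1.2.1 * H 0 x / QQ x.1.1 x.1.2.1 (H 0 x) (H 1 x) ∧
  ∃ c, P354R.kap x.1.1 x.1.2.1 * x.2.1 * c =
      -(P354R.Del x.1.1 x.1.2.1 (H 0 x) / QQ x.1.1 x.1.2.1 (H 0 x) (H 1 x)) ∧
    gs (H 0) x = c * √(QQ x.1.1 x.1.2.1 (H 0 x) x.2.2) ∧
    gs (H 1) x = c * (1 - H 1 x ^ 2) * H 5 x ∧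
    gs (H 5) x = c * H 1 x * (H 5 x ^ 2 + x.1.2.1 ^ 2)

/-- The functions H describe the embedding for the coefficients G. -/
structure IsH (p0 : P3) (k ε0 δ : ℝ) (G H : ℕ → Y3 → ℝ) : Prop where
  smooth : ∀ i, ContDiff ℝ ∞ (H i)
  pos : ∀ p ∈ Metric.ball p0 ε0, ∀ s ∈ Icc 0 (1 + δ), ∀ ζ, |ζ| ≤ 1 + δ →
    H 0 (p, s, ζ) = rm p.1 p.2.1 + s * H 4 (p, s, ζ) ∧ 0 < H 4 (p, s, ζ) ∧
    H 0 (p, s, ζ) < rp p.1 p.2.1 ∧ 0 < H 2 (p, s, ζ) ∧
    1 - H 1 (p, s, ζ) ^ 2 = (1 - ζ ^ 2) * H 2 (p, s, ζ) ^ 2 ∧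
    0 < gs (H 0) (p, s, ζ) ∧ 0 < gz (H 1) (p, s, ζ)
  even : ∀ p s ζ, H 0 (p, s, -ζ) = H 0 (p, s, ζ) ∧ H 1 (p, s, -ζ) = -H 1 (p, s, ζ) ∧
    H 2 (p, s, -ζ) = H 2 (p, s, ζ) ∧ H 3 (p, s, -ζ) = H 3 (p, s, ζ)
  init : ∀ p ∈ Metric.ball p0 ε0, ∀ ζ, H 0 (p, 1, ζ) = p.2.2 ∧ H 1 (p, 1, ζ) = ζ ∧
    H 2 (p, 1, ζ) = 1 ∧ H 3 (p, 1, ζ) = 0
  iso : ∀ p ∈ Metric.ball p0 ε0, ∀ b σ t, Pull (fun w => JJ k H b p (cy σ t w))
    (bg k (Real.exp (-k * t)) (Fx G p) σ)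
    {w | Real.exp (-k * t) * Real.exp (-k * w.1) < 1 + δ} (gin p.1 p.2.1) (Bh p.1 p.2.1)
  ind : ∀ p ∈ Metric.ball p0 ε0, ∀ b t, Real.exp (-k * t) < 1 + δ →
    Ind (gin p.1 p.2.1) n0 (Js k H b p t) (kd k G p t)
  ode : ∀ p ∈ Metric.ball p0 ε0, ∀ s ∈ Icc 0 (1 + δ), ∀ ζ, |ζ| ≤ 1 + δ → HO H (p, s, ζ)

/-- GIN: the Kerr metric in ingoing coordinates. -/
def GIN : Prop := ∀ M a : ℝ, Met (gin M a) {p | 0 < rd p} ∧ Vac (gin M a) {p | 0 < rd p}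

/-- JP: the Kerr family together with the embeddings. -/
def JP : Prop :=
  ∀ M a r0 : ℝ, a ≠ 0 → |a| < M → rm M a < r0 → r0 < rp M a → ∃ ε0 δ δ1 C G H K,
    IsG (M, a, r0) (P354R.kap M a) ε0 δ G ∧ IsH (M, a, r0) (P354R.kap M a) ε0 δ G H ∧
      IsKF (M, a, r0) (P354R.kap M a) ε0 δ1 C K (kd (P354R.kap M a) G)

/-- JK: properties which follow from the formulas. Smoothness in all arguments, the radius, the
dilations, the Kruskal coordinates of the images, the two embeddings have the same image in the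
Kruskal chart, the slice of the time 0 is the cylinder, the slices are embedded. -/
def JK : Prop :=
  ∀ p0 k ε0 δ G H, IsG p0 k ε0 δ G → IsH p0 k ε0 δ G H → ∀ p ∈ Metric.ball p0 ε0, ∀ w : R4,
    xs w ≠ 0 → Real.exp (-k * w.1) < 1 + δ →
    (∀ b, ContDiffAt ℝ ∞ (fun x : P3 × R4 => JJ k H b x.1 x.2) (p, w) ∧
      rd (JJ k H b p w) = H 0 (ar k p w) ∧ JJ k H b p w ∈ Bh p.1 p.2.1 ∧
      ‖dir k H b p w‖ = 1 ∧ ∀ c > 0, JJ k H b p (w.1, c • w.2) =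
        pt ((JJ k H b p w).1 + sgn b * (k / P354R.kap p.1 p.2.1 * Real.log c))
          (rz (sgn b * (omm p.1 p.2.1 * (k / P354R.kap p.1 p.2.1 * Real.log c)))
            (xs (JJ k H b p w)))) ∧
    P354XE.kap p.1 p.2.1 (JJ k H true p w) = kp p.1 p.2.1
      (√(rp p.1 p.2.1 - H 0 (ar k p w)) * Real.exp (-(ka p.1 p.2.1 * tb k p w)))
      (√(rp p.1 p.2.1 - H 0 (ar k p w)) * Real.exp (ka p.1 p.2.1 * tb k p w))
      (ph k H p w - p.2.1 / (2 * p.1 * rp p.1 p.2.1) * tb k p w) (dir k H true p w) ∧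
    mir p.1 p.2.1 (P354XE.kap p.1 p.2.1 (JJ k H false p w)) =
      P354XE.kap p.1 p.2.1 (JJ k H true p w) ∧
    (w.1 = 0 → k = P354R.kap p.1 p.2.1 →
      P354XE.kap p.1 p.2.1 (JJ k H true p w) = cyl p.1 p.2.1 p.2.2 (xs w)) ∧
    ∀ b, InjOn (Js k H b p w.1) {0}ᶜ

end Vale.Agent.P354YJ
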