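import Vale.Agent.P354RG.GB
import Vale.Agent.P354YJ.JDefs

/-!
GB together with the map to the Boyer-Lindquist coordinates.
-/

open scoped ContDiff
open Set Filter Topology

namespace Vale.Agent.P354YJ

open Vale.Agent.P354n (R4)
open Vale.Agent.P354R Par Vale.Agent.P354RG
open Vale.Agent.P354I (P3)

/-- The arguments in a chart, and the Boyer-Lindquist coordinates in polar coordinates. -/
noncomputable def aq (k t : ℝ) (σ : Bool) (p : P3) (w : R4) : Y3 :=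
  (p, Real.exp (-k * (t + w.1)), ht σ w.2.2)
noncomputable def ps (k t : ℝ) (H : ℕ → Y3 → ℝ) (σ : Bool) (p : P3) (w : R4) : R4 :=
  (k / kap p.1 p.2.1 * w.2.1, H 0 (aq k t σ p (pol w)), H 1 (aq k t σ p (pol w)),
    w.2.2.2 - H 3 (aq k t σ p (pol w)) + omm p.1 p.2.1 * (k / kap p.1 p.2.1 * w.2.1))

structure IsB (p0 : P3) (k ε0 δ : ℝ) (G H : ℕ → Y3 → ℝ) : Prop where
  smooth : ∀ i, ContDiff ℝ ∞ (H i)
  pos : ∀ p ∈ Metric.ball p0 ε0, ∀ s ∈ Icc 0 (1 + δ), ∀ ζ, |ζ| ≤ 1 + δ →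
    H 0 (p, s, ζ) = rm p.1 p.2.1 + s * H 4 (p, s, ζ) ∧ 0 < H 4 (p, s, ζ) ∧
    H 0 (p, s, ζ) < rp p.1 p.2.1 ∧ 0 < H 2 (p, s, ζ) ∧
    1 - H 1 (p, s, ζ) ^ 2 = (1 - ζ ^ 2) * H 2 (p, s, ζ) ^ 2 ∧
    0 < gs (H 0) (p, s, ζ) ∧ 0 < gz (H 1) (p, s, ζ)
  even : ∀ p s ζ, H 0 (p, s, -ζ) = H 0 (p, s, ζ) ∧ H 1 (p, s, -ζ) = -H 1 (p, s, ζ) ∧
    H 2 (p, s, -ζ) = H 2 (p, s, ζ) ∧ H 3 (p, s, -ζ) = H 3 (p, s, ζ)
  init : ∀ p ∈ Metric.ball p0 ε0, ∀ ζ, H 0 (p, 1, ζ) = p.2.2 ∧ H 1 (p, 1, ζ) = ζ ∧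
    H 2 (p, 1, ζ) = 1 ∧ H 3 (p, 1, ζ) = 0
  blc : ∀ p ∈ Metric.ball p0 ε0, ∀ σ t (w : R4), Real.exp (-k * t) * Real.exp (-k * w.1) < 1 + δ →
    0 < w.2.2.1 → ∀ A B, gP (bg k (Real.exp (-k * t)) (Fx G p) σ) w A B =
      kbl p.1 p.2.1 (ps k t H σ p w) (fderiv ℝ (ps k t H σ p) w A) (fderiv ℝ (ps k t H σ p) w B)
  ode : ∀ p ∈ Metric.ball p0 ε0, ∀ s ∈ Icc 0 (1 + δ), ∀ ζ, |ζ| ≤ 1 + δ → HO H (p, s, ζ)

lemma gs_eq {f : Y3 → ℝ} (hf : ContDiff ℝ ∞ f) (p : P3) (s ζ : ℝ) :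
    HasDerivAt (fun t => f (p, t, ζ)) (gs f (p, s, ζ)) s :=
  HasFDerivAt.comp_hasDerivAt s (f := fun t : ℝ => ((p, t, ζ) : Y3))
    (hf.differentiable (by simp) _).hasFDerivAt
    ((hasDerivAt_const _ _).prodMk ((hasDerivAt_id _).prodMk (hasDerivAt_const _ _)))

lemma gz_eq {f : Y3 → ℝ} (hf : ContDiff ℝ ∞ f) (p : P3) (s ζ : ℝ) :
    HasDerivAt (fun t => f (p, s, t)) (gz f (p, s, ζ)) ζ :=
  HasFDerivAt.comp_hasDerivAt ζ (f := fun t : ℝ => ((p, s, t) : Y3))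
    (hf.differentiable (by simp) _).hasFDerivAt
    ((hasDerivAt_const _ _).prodMk ((hasDerivAt_const _ _).prodMk (hasDerivAt_id _)))

/-- The functions r, z, sin / sin, the shift of the angle, and (r - rm) / s. -/
noncomputable def HF (P : P3 → Par) (d : P3 → ℝ) (S : Y3 → W4) (i : ℕ) (x : Y3) : ℝ :=
  match i with
  | 0 => (P x.1).rad (sl S x.1) (d x.1, x.2)
  | 1 => zz (sl S x.1) (d x.1, x.2)
  | 2 => √((P x.1).eE (sl S x.1) (d x.1, x.2))
  | 3 => hh (sl S x.1) (d x.1, x.2)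
  | 4 => d x.1 * eta (sl S x.1) (d x.1, x.2)
  | _ => pp (sl S x.1) (d x.1, x.2)

section

variable {P : P3 → Par} {d : P3 → ℝ} {p0 : P3} {δ : ℝ} {S : Y3 → W4} (h : Fam P d p0 δ S)
  (hP : SmP P) (hd : ContDiff ℝ ∞ d)
include h hP hd

lemma HF_s (i : ℕ) : ContDiff ℝ ∞ (HF P d S i) := by
  have Q := hP.comp (g := fun x : Y3 => x.1) contDiff_fst
  have s0 := h.smooth
  have a0 : ContDiff ℝ ∞ fun x : Y3 => d x.1 := hd.comp contDiff_fst
  have a1 : ContDiff ℝ ∞ fun x : Y3 => eta (sl S x.1) (d x.1, x.2) := s0.fst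
  have a3 : ContDiff ℝ ∞ fun x : Y3 => pp (sl S x.1) (d x.1, x.2) := s0.snd.snd.fst
  unfold HF
  match i with
  | 0 => exact Q.m.add ((contDiff_snd.fst.mul a0).mul a1)
  | 1 => exact s0.snd.fst
  | 2 =>
    exact ContDiff.sqrt ((Q.a.pow 2).div ((a3.pow 2).add (Q.a.pow 2))
      fun x => ((P x.1).p2_pos _ _).ne') fun x => ((P x.1).eE_pos _ _).ne'
  | 3 => exact s0.snd.snd.snd
  | 4 => exact a0.mul a1
  | _ + 5 => exact a3

lemma HF_pos {x : Y3} (hx : x ∈ BX p0 δ) :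
    HF P d S 0 x = (P x.1).m + x.2.1 * HF P d S 4 x ∧ 0 < HF P d S 4 x ∧
    HF P d S 0 x < (P x.1).R ∧ 0 < HF P d S 2 x ∧
    1 - HF P d S 1 x ^ 2 = (1 - x.2.2 ^ 2) * HF P d S 2 x ^ 2 ∧
    0 < gs (HF P d S 0) x ∧ 0 < gz (HF P d S 1) x := by
  obtain ⟨g, hc⟩ := h.at' hx
  have d0 := (h.chr _ hx.1).1
  refine ⟨by simp only [HF, rad_eq, mul_assoc], mul_pos d0 (g.eta_pos hc), g.r_lt hc,
    Real.sqrt_pos.2 ((P x.1).eE_pos _ _), ?_, ?_, ?_⟩
  · simp only [HF, Real.sq_sqrt ((P x.1).eE_pos _ _).le]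
    exact g.one_sub hc
  · rw [(gs_eq (HF_s h hP hd 0) x.1 x.2.1 x.2.2).unique (hasDerivAt_ds (dAt g.rad_s (d x.1, x.2))),
      g.ds_rad hc, cf_eq]
    exact mul_pos (div_pos (mul_pos (mul_pos d0 (g.eta_pos hc)) (sub_pos.2 (g.r_lt hc)))
      (mul_pos (P x.1).k_pos (g.A_pos hc))) ((P x.1).qq_pos (g.q_pos hc))
  · rw [(gz_eq (HF_s h hP hd 1) x.1 x.2.1 x.2.2).unique (hasDerivAt_dz (dAt g.zz_s (d x.1, x.2)))]
    exact (h.chr _ hx.1).2.2 _ hc

lemma HF_ode {x : Y3} (hx : x ∈ BX p0 δ) (e1 : ((P x.1).m + (P x.1).R) / 2 = x.1.1)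
    (e2 : (P x.1).a = x.1.2.1) (e4 : (P x.1).k = kap x.1.1 x.1.2.1)
    (e5 : omm x.1.1 (P x.1).a = (P x.1).a / ((P x.1).m ^ 2 + (P x.1).a ^ 2)) :
    HO (HF P d S) x := by
  obtain ⟨g, hc⟩ := h.at' hx
  have eD : ∀ r, Del x.1.1 x.1.2.1 r = (P x.1).Dl r := fun r => by
    rw [← e1, ← e2, Del, Dl, (P x.1).ha]
    ring
  have eQ : ∀ r ζ, QQ x.1.1 x.1.2.1 r ζ = (P x.1).Q2 r ζ := fun r ζ => by rw [QQ, eD, Q2, e2]
  have G' : ∀ {i f}, ContDiff ℝ ∞ f → (∀ s, HF P d S i (x.1, s, x.2.2) = f (d x.1, s, x.2.2)) →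
      gs (HF P d S i) x = ds f (d x.1, x.2) := fun {i f} hf e =>
    (gs_eq (HF_s h hP hd i) x.1 x.2.1 x.2.2).unique
      (funext e ▸ hasDerivAt_ds (dAt hf (d x.1, x.2)))
  simp only [HO, eQ, eD, ← e4]
  refine ⟨g.q_pos hc, g.A_pos hc, ?_, g.pp_one _ _, ?_, (P x.1).cf (sl S x.1) (d x.1, x.2),
    g.cf_s hc, ?_, ?_, ?_⟩
  · simp only [HF]
    rw [Real.sq_sqrt ((P x.1).eE_pos _ _).le, eE, ← e2]
    exact div_mul_cancel₀ _ ((P x.1).p2_pos _ _).ne'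
  · rw [G' g.hh_s fun _ => rfl, g.ds_hh hc, ← e2, e5, ← e1]
    have a1 := (g.A_pos hc).ne'
    have a2 := (P x.1).m0_pos.ne'
    have a3 := (P x.1).k_pos.ne'
    have a4 : x.2.1 * d x.1 * eta (sl S x.1) (d x.1, x.2) =
        (P x.1).rad (sl S x.1) (d x.1, x.2) - (P x.1).m := by rw [rad_eq]; ring
    simp only [HF, WW]
    generalize (P x.1).rad (sl S x.1) (d x.1, x.2) = r at *
    have a5 : ∀ u, (P x.1).k * x.2.1 * -(d x.1 * eta (sl S x.1) (d x.1, x.2) * u / (P x.1).k) =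
      -(x.2.1 * d x.1 * eta (sl S x.1) (d x.1, x.2) * u) := fun u => by field_simp
    rw [a5, a4]
    field_simp
    simp only [Q2, Dl, (P x.1).ha]
    ring
  · rw [G' g.rad_s fun _ => rfl, g.ds_rad hc]
    rfl
  · rw [G' g.zz_s fun _ => rfl, g.ds_zz hc]
    rfl
  · rw [G' g.pp_s fun _ => rfl, g.ds_pp hc, ← e2]
    rfl

end

lemma Lc_pol (c t : ℝ) (w A : R4) :
    Lc c (fderiv ℝ pol w A) = fderiv ℝ pol (Lm c t w) (Lc c A) := by
  rw [fderiv_pol, fderiv_pol]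
  rfl

theorem gb2 (M a r0 : ℝ) (ha : a ≠ 0) (hM : |a| < M) (h1 : rm M a < r0) (h2 : r0 < rp M a) :
    ∃ ε0 δ G H, IsG (M, a, r0) (kap M a) ε0 δ G ∧ IsB (M, a, r0) (kap M a) ε0 δ G H := by
  set p0 : P3 := (M, a, r0) with hp0
  have c1 : Continuous fun p : P3 => rm p.1 p.2.1 := by unfold rm; fun_prop
  have c2 : Continuous fun p : P3 => rp p.1 p.2.1 := by unfold rp; fun_prop
  have ev : ∀ᶠ p : P3 in 𝓝 p0, p.2.1 ≠ 0 ∧ |p.2.1| < p.1 ∧ rm p.1 p.2.1 < p.2.2 ∧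
      p.2.2 < rp p.1 p.2.1 :=
    (continuous_snd.fst.continuousAt.eventually_ne ha).and
      ((continuous_snd.fst.abs.continuousAt.eventually_lt continuousAt_fst hM).and
      ((c1.continuousAt.eventually_lt (x₀ := p0) continuous_snd.snd.continuousAt h1).and
      (continuous_snd.snd.continuousAt.eventually_lt (x₀ := p0) c2.continuousAt h2)))
  obtain ⟨ε1, p1, ev⟩ := Metric.eventually_nhds_iff.1 ev
  obtain ⟨cE, es, ei, eb⟩ := exists_clampE p0 (half_pos p1) (half_lt_self p1)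
  let P : P3 → Par := fun p => par (ev (eb p)).1 (ev (eb p)).2.1
  let d : P3 → ℝ := fun p => (cE p).2.2 - (P p).m
  have sq : ContDiff ℝ ∞ fun p => √((cE p).1 ^ 2 - (cE p).2.1 ^ 2) :=
    ContDiff.sqrt (by fun_prop) fun p => by
      have := (ev (eb p)).2.1
      have : (cE p).2.1 ^ 2 < (cE p).1 ^ 2 := by rw [← sq_abs (cE p).2.1]; gcongr
      linarith
  have sm : ContDiff ℝ ∞ fun p => (P p).m := es.fst.sub sq
  have sR : ContDiff ℝ ∞ fun p => (P p).R := es.fst.add sq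
  have hP : SmP P := ⟨es.snd.fst, sm, sR,
    (sR.sub sm).div ((sm.pow 2).add (es.snd.fst.pow 2)) fun p => (P p).m0_pos.ne'⟩
  have hd : ContDiff ℝ ∞ d := es.snd.snd.sub sm
  have d0 : ∀ p, 0 < d p := fun p => sub_pos.2 (ev (eb p)).2.2.1
  obtain ⟨δ, S, h⟩ := exists_fam hP hd p0 (d0 p0) (by
    simp only [d, add_sub_cancel]
    exact (ev (eb p0)).2.2.2)
  have p2 := h.pos
  obtain ⟨c1, s1, i1, b1⟩ := exists_clampE p0 (half_pos p2) (half_lt_self p2)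
  obtain ⟨c2, s2, i2, b2⟩ := exists_clampI zero_le_one (half_pos p2) (half_lt_self p2)
  obtain ⟨c3, s3, i3, b3, o3⟩ := exists_clampO (r := 1 + δ / 2) (r' := 1 + δ) (by linarith)
    (by linarith)
  let cl : Y3 → Y3 := fun x => (c1 x.1, c2 x.2.1, c3 x.2.2)
  have cls : ContDiff ℝ ∞ cl := by
    simp only [cl]
    fun_prop
  have clb : ∀ x, cl x ∈ BX p0 δ := fun x => ⟨(b1 _).le, by simpa using b2 x.2.1, b3 _⟩
  set k := kap M a with hk
  have k0 : 0 < k := (par ha hM).k_pos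
  let F : ℕ → Y3 → ℝ := fun i x => JF P d S i (cl x)
  have Fs : ∀ i, ContDiff ℝ ∞ (F i) := fun i => (h.JF_s hP hd i).comp_contDiff cls clb
  have Fp : ∀ p s, ∀ z ∈ Icc (-1 : ℝ) 1, 0 < F 0 (p, s, z) ∧ 0 < F 1 (p, s, z) ∧
      0 < F 1 (p, s, z) * (F 1 (p, s, z) + (1 - z ^ 2) * F 2 (p, s, z)) -
        (1 - z ^ 2) ^ 2 * F 3 (p, s, z) ^ 2 := fun p s z hz => by
    obtain ⟨g, hc⟩ := h.at' (clb (p, s, z))
    have k3 := g.det_pos hc ((h.chr _ (clb (p, s, z)).1).2.2 _ hc)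
    have e : (cl (p, s, z)).2.2 = z := i3 z (by linarith [abs_le.2 hz])
    simp only [e] at k3
    exact ⟨g.f0_pos hc, g.f1_pos hc, k3⟩
  let G : ℕ → Y3 → ℝ := fun i x => sc (k / (P x.1).k) (d x.1) i * F i x
  have cp : ∀ p, 0 < k / (P p).k := fun p => div_pos k0 (P p).k_pos
  have Gs : ∀ i, ContDiff ℝ ∞ (G i) := fun i => by
    have a1 : ContDiff ℝ ∞ fun x : Y3 => k / (P x.1).k :=
      contDiff_const.div (hP.k.comp contDiff_fst) fun x => (P x.1).k_pos.ne'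
    have a2 : ContDiff ℝ ∞ fun x : Y3 => d x.1 := hd.comp contDiff_fst
    refine ContDiff.mul ?_ (Fs i)
    match i with
    | 0 => exact (a1.pow 2).mul a2
    | 4 => exact a1.mul a2
    | 1 | 2 | 3 | _ + 5 => exact contDiff_const
  have g0 : gs (G 1) (p0, 0, 0) < 0 := by
    obtain ⟨v, v0, hv⟩ := h.dphi0
    have a1 : HasDerivAt (fun t : ℝ => ((p0, t, 0) : Y3)) (0, 1, 0) 0 :=
      (hasDerivAt_const _ _).prodMk ((hasDerivAt_id _).prodMk (hasDerivAt_const _ _))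
    have a2 := HasFDerivAt.comp_hasDerivAt 0 (f := fun t : ℝ => ((p0, t, 0) : Y3))
      ((Gs 1).differentiable (by simp) _).hasFDerivAt a1
    refine (a2.unique (hv.congr_of_eventuallyEq ?_)).trans_lt v0
    filter_upwards [Icc_mem_nhds (a := 0 - δ / 2) (b := 1 + δ / 2) (by linarith) (by linarith)]
      with s hs
    simp only [Function.comp, G, F, sc, cl, one_mul, i1 p0 (by simp; linarith), i2 s hs,
      i3 0 (by simp; linarith)]
  have ev2 : ∀ᶠ x : P3 × ℝ in 𝓝 (p0, 0), gs (G 1) (x.1, x.2, 0) < 0 := by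
    have a1 : Continuous (gs (G 1)) :=
      ((Gs 1).continuous_fderiv (by simp)).clm_apply continuous_const
    exact (a1.comp (by fun_prop)).continuousAt.eventually_lt continuousAt_const g0
  obtain ⟨ε2, p3, ev2⟩ := Metric.eventually_nhds_iff.1 ev2
  obtain ⟨ε, p4, l1, l2, l3⟩ : ∃ ε > 0, ε ≤ ε1 / 2 ∧ ε ≤ δ / 2 ∧ ε ≤ ε2 :=
    ⟨min (ε1 / 2) (min (δ / 2) ε2), by positivity, by simp, by simp, by simp⟩
  have cons : ∀ p ∈ Metric.ball p0 ε, cE p = p ∧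
      Cons (P p) (d p) (δ / 2) δ (sl S p) (fun i c => F i (p, c.2)) := fun p hp => by
    have a1 : dist p p0 < ε := hp
    refine ⟨ei p (by linarith), (h.chr p (by linarith)).2.1, ⟨d0 p, half_pos p2⟩,
      fun i => (Fs i).comp (contDiff_const.prodMk contDiff_snd), fun _ => Fp p,
      fun i s hs z hz => ⟨⟨rfl, ⟨by linarith [hs.1], by linarith [hs.2]⟩, by linarith⟩, ?_⟩⟩
    simp only [F, JF, cl, i1 p (by linarith), i2 s ⟨by linarith [hs.1], hs.2⟩, i3 z (by linarith)]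
  have pl : ∀ p ∈ Metric.ball p0 ε, ∀ t σ, _ := fun p hp t σ =>
    pull_Lm (t := t) (G := G) (p := p) (F := fun i c => F i (p, c.2)) (cp p)
      (mul_div_cancel₀ k (P p).k_pos.ne') (fun _ _ _ => rfl) σ (δ / 2) ((cons p hp).2.met σ _)
  have vals : ∀ p ∈ Metric.ball p0 ε, ((P p).m + (P p).R) / 2 = p.1 ∧ (P p).a = p.2.1 ∧
      (P p).m + d p = p.2.2 ∧ (P p).k = kap p.1 p.2.1 ∧
      omm p.1 (P p).a = (P p).a / ((P p).m ^ 2 + (P p).a ^ 2) := fun p hp => by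
    have e := (cons p hp).1
    simp only [P, d, par, e, add_sub_cancel, omm, and_true, rm, rp]
    ring
  have z0 : ∀ z : ℝ × ℝ × ℝ, ((0, z) : R4) ∈
      {w : R4 | Real.exp (-k * 0) * Real.exp (-k * w.1) < 1 + δ / 2} := fun z => by
    simp only [mem_ofPred_eq, mul_zero, Real.exp_zero]
    linarith
  have hB : IsB p0 k ε (δ / 2) G (HF P d S) := by
    refine ⟨HF_s h hP hd, fun p hp s hs ζ hζ => ?_, fun p s ζ => ?_, fun p hp ζ => ?_,
      fun p hp σ t w hw hw' A B => ?_, fun p hp s hs ζ hζ => HF_ode h hP hd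
        ⟨by have : dist p p0 < ε := hp; simp only; linarith,
          ⟨by linarith [hs.1], by linarith [hs.2]⟩, by simp only; linarith⟩
        (vals p hp).1 (vals p hp).2.1 (vals p hp).2.2.2.1 (vals p hp).2.2.2.2⟩
    · have a1 : dist p p0 < ε := hp
      have a2 := HF_pos h hP hd (x := (p, s, ζ))
        ⟨by simp only; linarith, ⟨by linarith [hs.1], by linarith [hs.2]⟩, by simp only; linarith⟩
      simpa only [P, par, (cons p hp).1] using a2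
    · simp only [HF, rad_eq, eE, eta, zz, pp, hh, sl, h.par, neg_sq, and_self]
    · have g := (cons p hp).2.chr
      simp only [HF, g.rad_one, g.zz_one, g.hh_one, eE, g.pp_one, (vals p hp).2.2.1, true_and,
        and_true]
      rw [show (0 : ℝ) ^ 2 + (P p).a ^ 2 = (P p).a ^ 2 by ring, div_self (P p).a2_pos.ne',
        Real.sqrt_one]
    · obtain ⟨e1, e2, e3, e4, e5⟩ := vals p hp
      have a0 := (pl p hp t σ).maps (x := pol w) hw
      have a1 := (pl p hp t σ).eq (pol w) hw (fderiv ℝ pol w A) (fderiv ℝ pol w B)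
      have a2 := ((cons p hp).2.pull_phi σ P354RK.k1).eq (Lm (k / (P p).k) t w) ⟨a0, hw'⟩
        (Lc (k / (P p).k) A) (Lc (k / (P p).k) B)
      have a3 : ps k t (HF P d S) σ p =
          (P p).phi (sl S p) (d p) σ ∘ Lm (k / (P p).k) t := by
        funext x
        have : -(P p).k * (k / (P p).k * (x.1 + t)) = -k * (t + x.1) := by
          have := (P p).k_pos.ne'
          field_simp
          ring
        simp only [ps, aq, HF, phi, Function.comp, arg, pol, Lm, this, ← e4, ← e5]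
        rw [e2]
      have a4 : ∀ A, fderiv ℝ (ps k t (HF P d S) σ p) w A = fderiv ℝ
          ((P p).phi (sl S p) (d p) σ) (Lm (k / (P p).k) t w) (Lc (k / (P p).k) A) := fun A => by
        rw [a3, fderiv_comp w (((cons p hp).2.chr.phi_smooth _ σ).differentiable (by simp) _)
          ((Lm_smooth _ t).differentiable (by simp) _), ContinuousLinearMap.comp_apply, fderiv_Lm]
      rw [fderiv_Lm, fderiv_Lm, Lc_pol _ t, Lc_pol _ t] at a1
      rw [e1, e2] at a2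
      rw [a4, a4, a3]
      exact a1.trans a2
  refine ⟨ε, δ / 2, G, HF P d S, ⟨⟨k0, p4, half_pos p2⟩, Gs, fun p s z hz => ?_,
    fun p s z => ?_, fun p hp => ?_, fun p hp t σ => ?_, fun p hp σ z A B => ?_,
    fun p hp σ z A B => ?_, ε2 / 2, half_pos p3, fun p hp s hs => ev2 (y := (p, s)) ?_⟩, hB⟩
  · simp only [G, sc, one_mul]
    exact ⟨mul_pos (mul_pos (pow_pos (cp p) 2) (d0 p)) (Fp p s z hz).1, (Fp p s z hz).2⟩
  · simp only [G, F, cl, o3, h.JF_par, mul_neg, and_self]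
  · exact ev (lt_of_lt_of_le hp (by linarith))
  · exact P354RC.k2.2.1 _ _ _ _ _ (pl p hp t σ) ((cons p hp).2.vac σ P354RK.k1)
  · obtain ⟨e1, e2, e3, e4, e5⟩ := vals p hp
    have a1 := (pl p hp 0 σ).eq _ (z0 z) (0, A) (0, B)
    have a2 := (cons p hp).2.first σ e1 e5 (k / (P p).k * z.1, z.2) (k / (P p).k * A.1, A.2)
      (k / (P p).k * B.1, B.2)
    simp only [mul_zero, Real.exp_zero, fderiv_Lm, Lm, Lc, add_zero] at a1
    rw [a1, a2, e2, e3, e4]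
    rfl
  · obtain ⟨e1, e2, e3, e4, e5⟩ := vals p hp
    have a1 := P354RC.k2.2.2.2.2 _ _ _ _ _ (pl p hp 0 σ) _ (z0 z) (0, A) (0, B)
      (nrm k 1 (Fx G p) σ (0, z))
    have a2 := (cons p hp).2.second σ e1 e5 (k / (P p).k * z.1, z.2) (k / (P p).k * A.1, A.2)
      (k / (P p).k * B.1, B.2)
    have a3 : Lc (k / (P p).k) (nrm k 1 (Fx G p) σ (0, z)) = nrm (P p).k (d p)
        (fun i c => F i (p, c.2)) σ (0, k / (P p).k * z.1, z.2) := by
      have b1 := (cp p).ne'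
      simp only [nrm, Lc, rho_zero, arg_zero, Fx, G, sc, one_mul, Prod.smul_mk, smul_eq_mul,
        mul_one, mul_zero, smul_smul, mul_assoc ((k / (P p).k) ^ 2),
        Real.sqrt_mul (sq_nonneg (k / (P p).k)), Real.sqrt_sq (cp p).le]
      generalize k / (P p).k = c at *
      refine Prod.ext ?_ (Prod.ext rfl ?_)
      · simp only
        rw [mul_inv, mul_inv_cancel_left₀ b1]
      · simp only
        congr 1
        rw [mul_inv, mul_assoc c, mul_mul_mul_comm, inv_mul_cancel₀ b1, one_mul]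
    simp only [fderiv_Lm, a3, fderiv_fun_const, Pi.zero_apply, zero_apply,
      ((bg_lin σ _ _).map_zero), bg_symm σ _ 0, add_zero] at a1
    simp only [mul_zero, Real.exp_zero, Lm, Lc, add_zero] at a1
    rw [a1, a2, e2, e3, e4]
    rfl
  · rw [Prod.dist_eq, Real.dist_eq, sub_zero, abs_of_nonneg hs.1]
    exact max_lt (lt_of_lt_of_le hp l3) (by linarith [hs.2])

end Vale.Agent.P354YJ
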