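import Vale.Agent.P354YJ.GB2
import Vale.Agent.P354YJ.Gin
import Vale.Agent.P354E3.Ten

/-!
The embedding of the double null chart is an isometry.
-/

open scoped ContDiff
open Set Filter Topology Metric

noncomputable section

namespace Vale.Agent.P354YJ

open Vale.Agent.P354n (R4)
open Vale.Agent.P354R Vale.Agent.P354RG
open Vale.Agent.P354I (P3)
open Vale.Agent.P354XE (xs pt rd gin ka)
open Vale.Agent.P354D (sgn)
open Vale.Agent.P354JK (qq qq_pos)

section Kerr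

variable {M a r : ℝ} (ha : a ≠ 0) (h : |a| < M)
include ha h

lemma roots : 0 < rm M a ∧ rm M a < rp M a ∧ rm M a + rp M a = 2 * M ∧ rm M a * rp M a = a ^ 2 ∧
    2 * ka M a = (rp M a - rm M a) / ((rm M a + rp M a) * rp M a) := by
  have P := par ha h
  have e : rm M a + rp M a = 2 * M := by simp only [rm, rp]; ring
  refine ⟨(par ha h).hm, (par ha h).hR, e, (par ha h).ha.symm, ?_⟩
  rw [e, ka, ← mul_div_assoc]
  congr 1
  simp only [rm, rp]
  ring

lemma del_eq (r : ℝ) : Del M a r = (r - rp M a) * (r - rm M a) := by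
  obtain ⟨-, -, e1, e2, -⟩ := roots ha h
  unfold Del
  linear_combination r * e1 - e2

omit ha h in
lemma mem_bl : r ∈ ball M √(M ^ 2 - a ^ 2) ↔ rm M a < r ∧ r < rp M a := by
  rw [Real.ball_eq_Ioo]
  rfl

variable (h1 : rm M a < r) (h2 : r < rp M a)
include h1 h2

lemma hT_d : ContDiffAt ℝ ∞ (hT M a) r ∧ HasDerivAt (hT M a) (2 * M * r / Del M a r) r := by
  obtain ⟨m0, m1, e1, -, e3⟩ := roots ha h
  have n1 := (sub_pos.2 h1).ne'
  have n2 := (sub_pos.2 h2).ne'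
  refine ⟨(((contDiffAt_const.sub contDiffAt_id).log n2).sub (contDiffAt_const.mul
    ((contDiffAt_id.sub contDiffAt_const).log n1))).div_const _, ?_⟩
  have k := ((((hasDerivAt_id r).const_sub (rp M a)).log n2).sub
    ((((hasDerivAt_id r).sub_const (rm M a)).log n1).const_mul (rm M a / rp M a))).div_const
      (2 * ka M a)
  refine k.congr_deriv ?_
  rw [del_eq ha h, e3, ← e1]
  have n3 := (sub_pos.2 m1).ne'
  have n4 := (sub_neg.2 h2).ne
  have n5 := (m0.trans m1).ne'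
  have n6 : rm M a + rp M a ≠ 0 := by linarith
  simp only [id]
  field_simp
  ring

lemma hP_d : ContDiffAt ℝ ∞ (hP M a) r ∧ HasDerivAt (hP M a) (a / Del M a r) r := by
  obtain ⟨m0, m1, -⟩ := roots ha h
  have n1 := (sub_pos.2 h1).ne'
  have n2 := (sub_pos.2 h2).ne'
  refine ⟨contDiffAt_const.mul (((contDiffAt_const.sub contDiffAt_id).log n2).sub
    ((contDiffAt_id.sub contDiffAt_const).log n1)), ?_⟩
  have k := ((((hasDerivAt_id r).const_sub (rp M a)).log n2).sub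
    (((hasDerivAt_id r).sub_const (rm M a)).log n1)).const_mul (a / (rp M a - rm M a))
  refine k.congr_deriv ?_
  rw [del_eq ha h]
  have n3 := (sub_pos.2 m1).ne'
  have n4 := (sub_neg.2 h2).ne
  simp only [id]
  field_simp
  ring

omit h1 h2 in
lemma pull_in : Pull (Bl (hT M a) (hP M a)) (kbl M a)
    {y : R4 | y.2.1 ∈ ball M √(M ^ 2 - a ^ 2) ∧ 0 < 1 - y.2.2.1 ^ 2} (gin M a) {p | 0 < rd p} := by
  refine (pull_Bl (fun r hr => ?_) ⟨fun r hr => ?_, fun r hr => ?_⟩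
    ⟨fun r hr => ?_, fun r hr => ?_⟩).1 <;> obtain ⟨h1, h2⟩ := mem_bl.1 hr
  · refine ⟨(roots ha h).1.trans h1, ?_⟩
    rw [del_eq ha h]
    exact mul_ne_zero (sub_neg.2 h2).ne (sub_pos.2 h1).ne'
  exacts [(hT_d ha h h1 h2).1.contDiffWithinAt, (hT_d ha h h1 h2).2,
    (hP_d ha h h1 h2).1.contDiffWithinAt, (hP_d ha h h1 h2).2]

end Kerr

/-- The reflection of the time and of the angle. -/
def rb (b : Bool) : R4 →L[ℝ] R4 :=
  LinearMap.toContinuousLinearMap
    { toFun := fun x => (sgn b * x.1, x.2.1, x.2.2.1, sgn b * x.2.2.2)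
      map_add' := fun x y => by simp only [Prod.fst_add, Prod.snd_add, mul_add, Prod.mk_add_mk]
      map_smul' := fun c x => by
        simp only [Prod.smul_fst, Prod.smul_snd, smul_eq_mul, Prod.smul_mk, RingHom.id_apply,
          mul_left_comm] }

lemma rb_eq (b : Bool) (x : R4) : rb b x = (sgn b * x.1, x.2.1, x.2.2.1, sgn b * x.2.2.2) := rfl

lemma kbl_rb (b : Bool) (M a : ℝ) (x A B : R4) :
    kbl M a (rb b x) (rb b A) (rb b B) = kbl M a x A B := by
  cases b <;> simp only [kbl, rb_eq, sgn, cond_true, cond_false] <;> ring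

variable {p0 p : P3} {k ε0 δ t : ℝ} {G H : ℕ → Y3 → ℝ} {σ b : Bool} {w : R4}

/-- The embedding in the chart σ. -/
def fj (k t : ℝ) (H : ℕ → Y3 → ℝ) (b σ : Bool) (p : P3) (w : R4) : R4 := JJ k H b p (cy σ t w)

/-- The angle of the rotation. -/
def an (k t : ℝ) (H : ℕ → Y3 → ℝ) (b σ : Bool) (p : P3) (w : R4) : ℝ :=
  sgn b * (omm p.1 p.2.1 * (k / kap p.1 p.2.1 * w.2.1) - H 3 (aq k t σ p w)) +
    hP p.1 p.2.1 (H 0 (aq k t σ p w))

lemma fj_eq (w : R4) : fj k t H b σ p w =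
    (sgn b * (k / kap p.1 p.2.1 * w.2.1) + hT p.1 p.2.1 (H 0 (aq k t σ p w)),
      H 0 (aq k t σ p w) * (Real.cos (an k t H b σ p w) * (H 2 (aq k t σ p w) *
        (2 * w.2.2.1 / qq w.2)) - Real.sin (an k t H b σ p w) * (sgn b * (H 2 (aq k t σ p w) *
        (2 * w.2.2.2 / qq w.2)))),
      H 0 (aq k t σ p w) * (Real.sin (an k t H b σ p w) * (H 2 (aq k t σ p w) *
        (2 * w.2.2.1 / qq w.2)) + Real.cos (an k t H b σ p w) * (sgn b * (H 2 (aq k t σ p w) *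
        (2 * w.2.2.2 / qq w.2)))), H 0 (aq k t σ p w) * H 1 (aq k t σ p w)) := by
  have e0 : xs (cy σ t w) = P354J.Phi σ w.2 := P354XA.xs_pt _ _
  have e1 : rd (cy σ t w) = Real.exp w.2.1 := by rw [rd, e0, P354JK.norm_phi]
  have e2 : ar k p (cy σ t w) = aq k t σ p w := by
    rw [ar, e0, P354E3.zh_phi]
    rfl
  have e3 : tb k p (cy σ t w) = k / kap p.1 p.2.1 * w.2.1 := by rw [tb, e1, Real.log_exp]
  have e4 : ∀ x, x * (cy σ t w).2.1 / Real.exp w.2.1 = x * (2 * w.2.2.1 / qq w.2) := fun x => by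
    rw [mul_div_assoc]
    exact congrArg _ (mul_div_cancel_left₀ _ (Real.exp_pos _).ne')
  have e5 : ∀ x, x * (cy σ t w).2.2.1 / Real.exp w.2.1 = x * (2 * w.2.2.2 / qq w.2) := fun x => by
    rw [mul_div_assoc]
    exact congrArg _ (mul_div_cancel_left₀ _ (Real.exp_pos _).ne')
  rw [fj, JJ, ph, dir, e1, e2, e3, e4, e5]
  rfl

lemma aq_s (k t : ℝ) (σ : Bool) (p : P3) : ContDiff ℝ ∞ (aq k t σ p) := by
  have := ht_smooth σ
  unfold aq
  fun_prop

variable (hG : IsG p0 k ε0 δ G) (hB : IsB p0 k ε0 δ G H) (hp : p ∈ ball p0 ε0)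
include hG hB hp

lemma val' (hw : Real.exp (-k * t) * Real.exp (-k * w.1) < 1 + δ) :
    rm p.1 p.2.1 < H 0 (aq k t σ p w) ∧ H 0 (aq k t σ p w) < rp p.1 p.2.1 ∧
      0 < H 2 (aq k t σ p w) ∧ 1 - H 1 (aq k t σ p w) ^ 2 =
        (1 - ht σ w.2.2 ^ 2) * H 2 (aq k t σ p w) ^ 2 ∧ 0 < gs (H 0) (aq k t σ p w) := by
  rw [← Real.exp_add, ← mul_add] at hw
  obtain ⟨e1, e2, e3, e4, e5, e6, -⟩ := hB.pos p hp _ ⟨(Real.exp_pos _).le, hw.le⟩ (ht σ w.2.2)
    ((abs_ht _ _).trans (by linarith [hG.pos0.2.2]))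
  refine ⟨?_, e3, e4, e5, e6⟩
  rw [aq, e1]
  exact lt_add_of_pos_right _ (mul_pos (Real.exp_pos _) e2)

lemma fj_cd (hw : Real.exp (-k * t) * Real.exp (-k * w.1) < 1 + δ) :
    ContDiffAt ℝ ∞ (fj k t H b σ p) w := by
  obtain ⟨a0, a1, -⟩ := hG.par p hp
  obtain ⟨u1, u2, -⟩ := val' (σ := σ) hG hB hp hw
  have cH : ∀ i, ContDiffAt ℝ ∞ (fun x => H i (aq k t σ p x)) w := fun i =>
    ((hB.smooth i).comp (aq_s k t σ p)).contDiffAt
  have cT := (hT_d a0 a1 u1 u2).1.comp w (cH 0)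
  have cP := (hP_d a0 a1 u1 u2).1.comp w (cH 0)
  have cα : ContDiffAt ℝ ∞ (an k t H b σ p) w :=
    (contDiffAt_const.mul (ContDiffAt.sub (by fun_prop) (cH 3))).add cP
  have cq : ContDiffAt ℝ ∞ (fun x : R4 => qq x.2) w := by unfold qq; fun_prop
  have d0 := (cH 2).mul (ContDiffAt.div (f := fun x : R4 => 2 * x.2.2.1) (by fun_prop) cq
    (qq_pos _).ne')
  have d1 := (contDiffAt_const (c := sgn b)).mul ((cH 2).mul (ContDiffAt.div
    (f := fun x : R4 => 2 * x.2.2.2) (by fun_prop) cq (qq_pos _).ne'))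
  rw [funext fj_eq]
  exact (ContDiffAt.add (by fun_prop) cT).prodMk
    (((cH 0).mul ((cα.cos.mul d0).sub (cα.sin.mul d1))).prodMk
      (((cH 0).mul ((cα.sin.mul d0).add (cα.cos.mul d1))).prodMk ((cH 0).mul (cH 1))))

lemma fj_rd (hw : Real.exp (-k * t) * Real.exp (-k * w.1) < 1 + δ) :
    rd (fj k t H b σ p w) = H 0 (aq k t σ p w) := by
  obtain ⟨a0, a1, -⟩ := hG.par p hp
  obtain ⟨u1, -, -, u4, -⟩ := val' (σ := σ) hG hB hp hw
  have s : sgn b ^ 2 = 1 := by cases b <;> simp [sgn]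
  have c := Real.cos_sq_add_sin_sq (an k t H b σ p w)
  have e : 1 - ht σ w.2.2 ^ 2 = (2 * w.2.2.1 / qq w.2) ^ 2 + (2 * w.2.2.2 / qq w.2) ^ 2 := by
    have := (qq_pos w.2).ne'
    rw [one_sub_ht]
    unfold qq at this ⊢
    field_simp
    ring
  rw [← sq_eq_sq₀ (P354XA.rd_nonneg _) ((roots a0 a1).1.trans u1).le, P354XA.rd_sq, fj_eq]
  simp only [P354XA.ip]
  rw [e] at u4
  generalize 2 * w.2.2.1 / qq w.2 = x at *
  generalize 2 * w.2.2.2 / qq w.2 = y at *
  grind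

lemma fj_pol (hw : Real.exp (-k * t) * Real.exp (-k * w.1) < 1 + δ) (hw' : 0 < w.2.2.1) :
    fj k t H b σ p (pol w) = Bl (hT p.1 p.2.1) (hP p.1 p.2.1) (rb b (ps k t H σ p w)) := by
  obtain ⟨-, -, u3, u4, -⟩ := val' (σ := σ) (w := pol w) hG hB hp hw
  have q : qq (pol w).2 = 1 + w.2.2.1 ^ 2 := by rw [qq, add_assoc, pol_sq]
  have e : √(1 - H 1 (aq k t σ p (pol w)) ^ 2) =
      H 2 (aq k t σ p (pol w)) * (2 * w.2.2.1 / (1 + w.2.2.1 ^ 2)) := by
    rw [u4, one_sub_ht, add_assoc, pol_sq, Real.sqrt_eq_iff_mul_self_eq (by positivity)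
      (by positivity)]
    field_simp
    ring
  have e2 : sgn b * (w.2.2.2 - H 3 (aq k t σ p (pol w)) +
      omm p.1 p.2.1 * (k / kap p.1 p.2.1 * w.2.1)) + hP p.1 p.2.1 (H 0 (aq k t σ p (pol w))) =
      an k t H b σ p (pol w) + sgn b * w.2.2.2 := by
    simp only [an, pol]
    ring
  have c : Real.cos (sgn b * w.2.2.2) = Real.cos w.2.2.2 ∧
      Real.sin (sgn b * w.2.2.2) = sgn b * Real.sin w.2.2.2 := by cases b <;> simp [sgn]
  rw [fj_eq, q]
  simp only [Bl, rb_eq, ps, e, e2, Real.cos_add, Real.sin_add, c]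
  refine Prod.ext rfl (Prod.ext ?_ (Prod.ext ?_ rfl)) <;> simp only [pol] <;> ring

lemma iso_off (hw : Real.exp (-k * t) * Real.exp (-k * w.1) < 1 + δ) (hw' : w.2.2 ≠ 0)
    (A B : R4) : bg k (Real.exp (-k * t)) (Fx G p) σ w A B = gin p.1 p.2.1 (fj k t H b σ p w)
      (fderiv ℝ (fj k t H b σ p) w A) (fderiv ℝ (fj k t H b σ p) w B) := by
  obtain ⟨w, rfl, h0⟩ := pol_surj hw'
  obtain ⟨A, rfl⟩ := P354RC.surj_of_inj (pol_inj h0) A
  obtain ⟨B, rfl⟩ := P354RC.surj_of_inj (pol_inj h0) B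
  obtain ⟨a0, a1, -⟩ := hG.par p hp
  obtain ⟨u1, u2, u3, u4, -⟩ := val' (σ := σ) hG hB hp hw
  have P := pull_in a0 a1
  have m : rb b (ps k t H σ p w) ∈ {y : R4 | y.2.1 ∈ ball p.1 √(p.1 ^ 2 - p.2.1 ^ 2) ∧
      0 < 1 - y.2.2.1 ^ 2} :=
    ⟨mem_bl.2 ⟨u1, u2⟩, (mul_pos (one_sub_pos σ hw') (pow_pos u3 2)).trans_eq u4.symm⟩
  have s : ContDiff ℝ ∞ (ps k t H σ p) := by
    have := fun i => ((hB.smooth i).comp (aq_s k t σ p)).comp pol_smooth
    exact ContDiff.prodMk (by fun_prop) ((this 0).prodMk ((this 1).prodMk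
      ((ContDiff.sub (by fun_prop) (this 3)).add (by fun_prop))))
  have ev : fj k t H b σ p ∘ pol =ᶠ[𝓝 w]
      Bl (hT p.1 p.2.1) (hP p.1 p.2.1) ∘ rb b ∘ ps k t H σ p := by
    have o1 : ∀ᶠ x : R4 in 𝓝 w, Real.exp (-k * t) * Real.exp (-k * x.1) < 1 + δ :=
      ContinuousAt.eventually_lt (by fun_prop) continuousAt_const hw
    have o2 : ∀ᶠ x : R4 in 𝓝 w, 0 < x.2.2.1 :=
      ContinuousAt.eventually_lt continuousAt_const (by fun_prop) h0
    filter_upwards [o1, o2] with x x1 x2 using fj_pol hG hB hp x1 x2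
  have e := ev.fderiv_eq (𝕜 := ℝ)
  have s1 := s.differentiable (by simp) w
  rw [fderiv_comp w ((fj_cd hG hB hp hw).differentiableAt (by simp))
    (pol_smooth.differentiable (by simp) w), fderiv_comp w ((P.smooth.contDiffAt
    (P.open'.mem_nhds m)).differentiableAt (by simp)) ((rb b).differentiableAt.comp w s1),
    fderiv_comp w (rb b).differentiableAt s1, (rb b).fderiv] at e
  have e' := fun A => congrArg (fun L : R4 →L[ℝ] R4 => L A) e
  simp only [ContinuousLinearMap.comp_apply, Function.comp] at e'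
  rw [e', e', fj_pol (w := w) hG hB hp hw h0, ← P.eq _ m, kbl_rb]
  exact hB.blc p hp σ t w hw h0 A B

omit hB hp in
lemma bg_met' (p : P3) (t : ℝ) (σ : Bool) (D : Set R4) : Met (bg k (Real.exp (-k * t)) (Fx G p) σ) D :=
  bg_met (F := Fx G p) σ (fun i => (hG.smooth i).comp
    (f := fun c : ℝ × ℝ × ℝ => ((p, c.1 * c.2.1, c.2.2) : Y3)) (by fun_prop))
    (fun d s => hG.pos p (d * s)) (Real.exp_pos _) D

theorem iso (b σ : Bool) (t : ℝ) : Pull (fj k t H b σ p) (bg k (Real.exp (-k * t)) (Fx G p) σ)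
    {w | Real.exp (-k * t) * Real.exp (-k * w.1) < 1 + δ} (gin p.1 p.2.1) (Bh p.1 p.2.1) := by
  obtain ⟨a0, a1, -⟩ := hG.par p hp
  have o : IsOpen {w : R4 | Real.exp (-k * t) * Real.exp (-k * w.1) < 1 + δ} :=
    isOpen_lt (by fun_prop) continuous_const
  have mp : ∀ w : R4, Real.exp (-k * t) * Real.exp (-k * w.1) < 1 + δ →
      fj k t H b σ p w ∈ Bh p.1 p.2.1 := fun w hw => by
    obtain ⟨u1, u2, -⟩ := val' (σ := σ) hG hB hp hw
    exact ⟨(fj_rd hG hB hp hw).symm ▸ u1, (fj_rd hG hB hp hw).symm ▸ u2⟩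
  have gm := gin_met' p.1 p.2.1 (D := Bh p.1 p.2.1) fun x hx => (roots a0 a1).1.trans hx.1
  have ob : IsOpen (Bh p.1 p.2.1) := (isOpen_lt continuous_const P354XA.rd_cont).inter
    (isOpen_lt P354XA.rd_cont continuous_const)
  have eq : ∀ w : R4, Real.exp (-k * t) * Real.exp (-k * w.1) < 1 + δ → ∀ A B,
      bg k (Real.exp (-k * t)) (Fx G p) σ w A B = gin p.1 p.2.1 (fj k t H b σ p w)
        (fderiv ℝ (fj k t H b σ p) w A) (fderiv ℝ (fj k t H b σ p) w B) := by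
    intro w hw A B
    obtain ⟨g, r⟩ := P354RC.rp_of_met ob gm
    have c1 := (P354RC.pb_cd (r.at (mp w hw)) (fj_cd hG hB hp hw)).continuousAt
    have c2 : ContinuousAt (fun x => bg k (Real.exp (-k * t)) (Fx G p) σ x A B -
        P354RC.pb g (fj k t H b σ p) x A B) w :=
      (((bg_met' hG p t σ univ).smooth A B).continuousOn.continuousAt univ_mem).sub
        ((c1.clm_apply continuousAt_const).clm_apply continuousAt_const)
    have m := mem_closure_axis (D := {w : R4 | Real.exp (-k * t) * Real.exp (-k * w.1) < 1 + δ})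
      (fun x hx q e => by simpa only [mem_ofPred_eq, e] using hx) hw
    have := c2.continuousWithinAt.mem_closure_image m
    have z : (fun x => bg k (Real.exp (-k * t)) (Fx G p) σ x A B -
        P354RC.pb g (fj k t H b σ p) x A B) '' {x | x ∈ {w : R4 | Real.exp (-k * t) *
        Real.exp (-k * w.1) < 1 + δ} ∧ x.2.2 ≠ 0} ⊆ {0} := by
      rintro _ ⟨x, hx, rfl⟩
      beta_reduce
      rw [mem_singleton_iff, iso_off (b := b) hG hB hp hx.1 hx.2, P354RC.pb_ap,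
        r.eq _ (mp x hx.1), sub_self]
    have := closure_mono z this
    rw [closure_singleton, mem_singleton_iff, sub_eq_zero] at this
    rw [this, P354RC.pb_ap, r.eq _ (mp w hw)]
  refine ⟨o, ob, gm, fun w hw => (fj_cd hG hB hp hw).contDiffWithinAt, mp, fun w hw =>
    (injective_iff_map_eq_zero _).2 fun A hA => (bg_met' hG p t σ univ).nondeg w trivial A
      fun B => ?_, eq⟩
  rw [eq w hw, hA, gin_symm]
  exact (gin_lin _ _ _ _).map_zero

end Vale.Agent.P354YJ
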