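import Vale.Agent.P354YJ.Rot
import Vale.Agent.P354YV.Defs

/-!
EXP: the constraints and the induced data do not see the rotation.
-/

open scoped ContDiff
open Set Filter Topology

namespace Vale.Agent.P354YJ

open Vale.Agent.P354H (X3 pd e)
open Vale.Agent.P354C

lemma RA_eq (c s : X3 → ℝ) (u : X3 → Ix → ℝ) : P354YV.RA c s u = rotF u c s := by
  funext z
  unfold P354YV.RA rotF
  congr 1
  funext r
  have k : ∀ j, omg c s z (e j) = P354YV.ang c s j z := fun j => rfl
  fin_cases r
  · exact ((lin3 (omg c s z) _ _ _).trans (by rw [k, k, k]; rfl)).symm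
  · exact ((lin3 (omg c s z) _ _ _).trans (by rw [k, k, k, zero_mul, zero_add]; rfl)).symm
  · exact ((lin3 (omg c s z) _ _ _).trans (by rw [k, k, k, zero_mul, zero_add]; rfl)).symm

theorem exp : P354YV.EXP := by
  intro c s u D hD hc hs h hu z hz _
  rw [RA_eq]
  refine ⟨constr_ang (fun i => (hu i).contDiffAt (hD.mem_nhds hz)) (hc.contDiffAt (hD.mem_nhds hz))
    (hs.contDiffAt (hD.mem_nhds hz)) ((hD.eventually_mem hz).mono h), fun H K k a b => ?_⟩
  obtain ⟨e1, e2⟩ := ind_rot (h z hz) (ang u c s z) (u z) (e a) (e b)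
  exact ⟨e1.trans (k a b).1, e2.trans (k a b).2⟩

end Vale.Agent.P354YJ
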