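import Vale.Agent.P354YJ.Iso2
import Vale.Agent.P354XK.GC
import Vale.Agent.P354KF.Main

/-!
JP: the data induced on the slices of the embedding.
-/

open scoped ContDiff
open Set Filter Topology Metric

noncomputable section

namespace Vale.Agent.P354YJ

open Vale.Agent.P354n (R4 IsConn)
open Vale.Agent.P354R Vale.Agent.P354RG
open Vale.Agent.P354I (P3 X pd ee)
open Vale.Agent.P354XE (xs pt rd gin dr dq kf Ind)
open Vale.Agent.P354J (Phi Psi)
open Vale.Agent.P354JK (DP phi_psi DP_psi psi_smooth dT_DP dP_DP rnd_DP)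
open Vale.Agent.P354XK (pd_cp pd_congr pd_ap x_pd pd_const)
open Vale.Agent.P354RC (at_fd at_df)

/-- In the black hole, a timelike vector along which r decreases is future directed. -/
lemma orient {M a : ℝ} {q v : R4} (h0 : 0 < rd q) (hD : Del M a (rd q) < 0)
    (hv : gin M a q v v < 0) (hr : dr q v < 0) : 0 < kf a q v := by
  have x0 : xs q ≠ 0 := norm_pos_iff.1 h0
  have e1 := P354E3.rnd_eq x0 (xs v)
  have e2 := P354E3.rnd_nn x0 (xs v)
  have e3 : P354I.Sg a (rd q) (xs q) = rd q ^ 2 + a ^ 2 * zh (xs q) ^ 2 := by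
    rw [zh, div_pow]
    rfl
  have e4 : 0 ≤ 1 - zh (xs q) ^ 2 := by
    have := P354E3.zh_mem (xs q)
    nlinarith [this.1, this.2]
  have S0 := Sg_pos a h0
  have e5 : gin M a q v v * P354I.Sg a (rd q) (xs q) = -Del M a (rd q) * kf a q v ^ 2 +
      2 * kf a q v * dr q v * P354I.Sg a (rd q) (xs q) +
      (P354I.Sg a (rd q) (xs q) ^ 2 * P354I.rnd (xs q) (xs v) (xs v) +
        a ^ 2 * kf a q v ^ 2 * (1 - zh (xs q) ^ 2) -
        2 * (a * kf a q v * P354I.Sg a (rd q) (xs q) * dq q v)) := by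
    rw [gin, show v.1 = kf a q v - dr q v + a * dq q v by rw [kf]; ring, Del]
    field_simp
    rw [e3]
    ring
  rw [show P354I.dP (xs q) (xs v) = dq q v from rfl] at e1
  generalize P354I.Sg a (rd q) (xs q) = S at *
  generalize P354I.rnd (xs q) (xs v) (xs v) = R at *
  generalize 1 - zh (xs q) ^ 2 = w at *
  generalize kf a q v = κ at *
  have A0 : 0 ≤ S ^ 2 * R := by positivity
  have B0 : 0 ≤ a ^ 2 * κ ^ 2 * w := by positivity
  have C0 : (a * κ * S * dq q v) ^ 2 ≤ S ^ 2 * R * (a ^ 2 * κ ^ 2 * w) := by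
    have : S ^ 2 * R * (a ^ 2 * κ ^ 2 * w) - (a * κ * S * dq q v) ^ 2 =
        (a * κ * S * dZ (xs q) (xs v)) ^ 2 := by linear_combination (a * κ * S) ^ 2 * e1
    nlinarith [sq_nonneg (a * κ * S * dZ (xs q) (xs v))]
  have Q0 : 2 * (a * κ * S * dq q v) ≤ S ^ 2 * R + a ^ 2 * κ ^ 2 * w :=
    (abs_le_of_sq_le_sq' (by nlinarith [sq_nonneg (S ^ 2 * R - a ^ 2 * κ ^ 2 * w)])
      (add_nonneg A0 B0)).2
  by_contra hk
  have k1 := mul_nonneg (mul_nonneg_of_nonpos_of_nonpos (not_lt.1 hk) hr.le) S0.le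
  have k2 := mul_nonneg (neg_pos.2 hD).le (sq_nonneg κ)
  have k3 := mul_neg_of_neg_of_pos hv S0
  linarith

/-- Transfer of the fundamental forms along an isometry. -/
lemma ind_pull {f : R4 → R4} {g g' : R4 → R4 → R4 → ℝ} {D D' : Set R4} (P : Pull f g' D' g D)
    {c : X → R4} {U : Set X} (hU : IsOpen U) (hc : ∀ z ∈ U, ContDiffAt ℝ ∞ c z ∧ c z ∈ D')
    {J : X → R4} (hJ : ∀ z ∈ U, J z = f (c z)) {y : X} (hy : y ∈ U) {Γ : R4 → R4 → R4 → R4}
    (hΓ : IsConn g Γ (J y)) (n : R4) (i l : Fin 3) :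
    pd i J y = fderiv ℝ f (c y) (pd i c y) ∧
      g (J y) (fderiv ℝ f (c y) n) (pd i (pd l J) y + Γ (J y) (pd i J y) (pd l J y)) =
        chr g' (c y) (pd i c y) (pd l c y) n + g' (c y) (pd i (pd l c) y) n := by
  have sf : ∀ z ∈ U, ContDiffAt ℝ ∞ f (c z) := fun z hz =>
    P.smooth.contDiffAt (P.open'.mem_nhds (hc z hz).2)
  have e1 : ∀ z ∈ U, ∀ i, pd i J z = fderiv ℝ f (c z) (pd i c z) := fun z hz i => by
    rw [pd_congr (mem_of_superset (hU.mem_nhds hz) hJ), pd_cp (sf z hz) (hc z hz).1]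
  have m := (hc y hy).2
  have m' := P.maps m
  refine ⟨e1 y hy i, ?_⟩
  have e2 : fderiv ℝ (fun z => fderiv ℝ f z (pd l c y)) (c y) (pd i c y) =
      fderiv ℝ (fderiv ℝ f) (c y) (pd i c y) (pd l c y) := by
    rw [P354RC.fd_ap (at_fd (sf y hy)) contDiffAt_const]
    simp
  rw [pd_congr (mem_of_superset (hU.mem_nhds hy) fun z hz => e1 z hz l),
    pd_ap (c := fun z => fderiv ℝ f (c z)) ((at_fd (sf y hy)).comp y (hc y hy).1)
      (x_pd (hc y hy).1 l), pd_cp (at_fd (sf y hy)) (hc y hy).1,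
    P354RC.k2.2.2.2.2 _ _ _ _ _ P _ m, P.eq _ m, e2, e1 y hy, e1 y hy, chr, ← hJ y hy, ← hΓ,
    hJ y hy, (P.met.lin _ m' _).map_add, (P.met.lin _ m' _).map_add]
  simp only [P.met.symm _ m' (fderiv ℝ f (c y) n)]
  ring

lemma ten_psi (c : ℕ → ℝ → ℝ) {σ : Bool} {y : X} (hy : y ≠ 0) (h : ‖y‖ + P354E.sg σ * y 2 ≠ 0)
    (i l : Fin 3) : tenC c σ (Psi σ y) (pd i (Psi σ) y) (pd l (Psi σ) y) = ten c y i l := by
  have g : ∀ z A B y v w, y = Phi σ z → v = DP σ z A → w = DP σ z B → tenC c σ z A B =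
      frm (fun n => c n (zh y)) (P354I.dT y v) (dZ y v) (P354I.dP y v) (P354I.dT y w) (dZ y w)
        (P354I.dP y w) (P354I.rnd y v w) := by
    rintro z A B _ _ _ rfl rfl rfl
    rw [P354E3.zh_phi, dT_DP, dT_DP, P354E3.dZ_DP, P354E3.dZ_DP, dP_DP, dP_DP, rnd_DP]
    rfl
  exact g _ _ _ _ _ _ (phi_psi σ hy h).symm (DP_psi σ hy h _).symm (DP_psi σ hy h _).symm

lemma bg_nrm (k d : ℝ) (F : ℕ → ℝ × ℝ × ℝ → ℝ) (σ : Bool) (w A : R4) :
    bg k d F σ w A (nrm k d F σ w) = -(rho k d w * F 0 (arg k d σ w) *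
      (√(rho k d w * F 0 (arg k d σ w)))⁻¹ * A.1) := by
  simp only [bg, gam, hor, nrm, rnd, dht, alp, rot, Prod.fst_sub, Prod.snd_sub, Prod.smul_mk,
    smul_eq_mul]
  ring

lemma aq_fd (k t : ℝ) (σ : Bool) (p : P3) (w v : R4) : fderiv ℝ (aq k t σ p) w v =
    (0, Real.exp (-k * (t + w.1)) * (-k * v.1), dht σ w.2.2 v.2.2) := by
  have a1 := hasFDerivAt_id (𝕜 := ℝ) w
  have d := (hasFDerivAt_const p w).prodMk ((((a1.fst.const_add t).const_mul (-k)).exp).prodMk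
    (((ht_smooth σ).differentiable (by simp) w.2.2).hasFDerivAt.comp w a1.snd.snd))
  rw [← fderiv_ht]
  exact congrArg (fun L : R4 →L[ℝ] Y3 => L v) d.fderiv

lemma pd_prod {ψ : X → ℝ × ℝ × ℝ} {y : X} (h : ContDiffAt ℝ ∞ ψ y) (i : Fin 3) :
    pd i (fun z => (((0 : ℝ), ψ z) : R4)) y = (0, pd i ψ y) := by
  have := pd_ap (c := fun _ => ContinuousLinearMap.inr ℝ ℝ (ℝ × ℝ × ℝ)) contDiffAt_const h i
  rw [pd_const, zero_apply, zero_add] at this
  exact this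

variable {p0 p : P3} {k ε0 δ : ℝ} {G H : ℕ → Y3 → ℝ}

theorem ind (hG : IsG p0 k ε0 δ G) (hB : IsB p0 k ε0 δ G H) (hp : p ∈ ball p0 ε0) (b : Bool)
    (t : ℝ) (ht : Real.exp (-k * t) < 1 + δ) :
    Ind (gin p.1 p.2.1) n0 (Js k H b p t) (kd k G p t) := by
  intro y hy
  obtain ⟨σ, hσ⟩ := exists_chart hy
  obtain ⟨a0, a1, -⟩ := hG.par p hp
  have P := iso hG hB hp b σ t
  have hU : IsOpen {z : X | z ≠ 0 ∧ ‖z‖ + P354E.sg σ * z 2 ≠ 0} :=
    isOpen_ne.inter (isOpen_ne_fun (by fun_prop) continuous_const)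
  have hm : ∀ z : ℝ × ℝ × ℝ, Real.exp (-k * t) * Real.exp (-k * ((0, z) : R4).1) < 1 + δ :=
    fun z => by simpa using ht
  have hJ : ∀ z ∈ {z : X | z ≠ 0 ∧ ‖z‖ + P354E.sg σ * z 2 ≠ 0},
      Js k H b p t z = fj k t H b σ p (0, Psi σ z) := fun z hz => by
    rw [Js, fj, cy, phi_psi σ hz.1 hz.2, add_zero]
  obtain ⟨Γ, hΓ⟩ := gin_vac p.1 p.2.1
  have e0 := hJ y ⟨hy, hσ⟩
  have mb := P.maps (hm (Psi σ y))
  have r0 := (roots a0 a1).1.trans mb.1
  have cn := (hΓ _ r0).1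
  rw [← e0] at cn
  have I := ind_pull P (c := fun z => (0, Psi σ z)) hU
    (fun z hz => ⟨contDiffAt_const.prodMk (psi_smooth σ hz.1 hz.2), hm _⟩) hJ ⟨hy, hσ⟩ cn
    (nrm k (Real.exp (-k * t)) (Fx G p) σ (0, Psi σ y))
  have s := psi_smooth σ hy hσ
  have e2 : ∀ i l, pd i (pd l fun z => (((0 : ℝ), Psi σ z) : R4)) y =
      (0, pd i (pd l (Psi σ)) y) := fun i l => by
    rw [pd_congr (mem_of_superset (hU.mem_nhds ⟨hy, hσ⟩) fun z hz =>
      pd_prod (psi_smooth σ hz.1 hz.2) l), pd_prod (x_pd s l)]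
  have O : 0 < rho k (Real.exp (-k * t)) (0, Psi σ y) *
      Fx G p 0 (arg k (Real.exp (-k * t)) σ (0, Psi σ y)) :=
    mul_pos (rho_pos (Real.exp_pos _) _) (hG.pos p _ _ (ht_mem σ _)).1
  have nn : gin p.1 p.2.1 (Js k H b p t y) (fderiv ℝ (fj k t H b σ p) (0, Psi σ y)
      (nrm k (Real.exp (-k * t)) (Fx G p) σ (0, Psi σ y))) (fderiv ℝ (fj k t H b σ p) (0, Psi σ y)
      (nrm k (Real.exp (-k * t)) (Fx G p) σ (0, Psi σ y))) = -1 := by
    rw [e0, ← P.eq _ (hm _), bg_nrm, nrm, Prod.smul_fst, smul_eq_mul, mul_one, mul_assoc _ _⁻¹,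
      ← mul_inv, Real.mul_self_sqrt O.le, mul_inv_cancel₀ O.ne']
  have K := fun A B => P354KF.kf k (Real.exp (-k * t)) G p σ 0 (Psi σ y) A B (Real.exp_pos _)
    hG.smooth fun s ζ hζ => (hG.pos p s ζ hζ).1
  simp only [mul_zero, Real.exp_zero, mul_one] at K
  refine ⟨Γ, _, cn, nn, ?_, fun i l => ⟨?_, ?_, ?_⟩⟩
  · rw [e0] at nn ⊢
    rw [n0, gin_n0 r0.ne', neg_lt_zero]
    refine orient r0 ?_ (nn.trans_lt neg_one_lt_zero) ?_
    · rw [del_eq a0 a1]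
      exact mul_neg_of_neg_of_pos (sub_neg.2 mb.2) (sub_pos.2 mb.1)
    have ev : rd ∘ fj k t H b σ p =ᶠ[𝓝 (0, Psi σ y)] H 0 ∘ aq k t σ p :=
      mem_of_superset (P.open'.mem_nhds (hm _)) fun x hx => fj_rd hG hB hp hx
    have e := ev.fderiv_eq (𝕜 := ℝ)
    rw [fderiv_comp _ (at_df (P354XA.rd_cd r0.ne')) (at_df (fj_cd hG hB hp (hm _))),
      fderiv_comp _ ((hB.smooth 0).differentiable (by simp) _)
        ((aq_s k t σ p).differentiable (by simp) _)] at e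
    have e' := congrArg (fun L : R4 →L[ℝ] ℝ =>
      L (nrm k (Real.exp (-k * t)) (Fx G p) σ (0, Psi σ y))) e
    simp only [ContinuousLinearMap.comp_apply] at e'
    have z : ∀ s : ℝ, ((0, s, dht σ ((0, Psi σ y) : R4).2.2 (nrm k (Real.exp (-k * t)) (Fx G p) σ
        (0, Psi σ y)).2.2) : Y3) = s • (0, 1, 0) := fun s => by
      simp only [nrm, dht, rot, Prod.smul_mk, smul_eq_mul, smul_zero, mul_one, mul_zero]
      refine Prod.ext rfl (Prod.ext rfl ?_)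
      ring
    rw [← P354XA.rd_fd r0.ne', e', aq_fd, z, map_smul, smul_eq_mul]
    refine mul_neg_of_neg_of_pos (mul_neg_of_pos_of_neg (Real.exp_pos _)
      (mul_neg_of_neg_of_pos (neg_lt_zero.2 hG.pos0.1) ?_)) (val' hG hB hp (hm _)).2.2.2.2
    rw [nrm, Prod.smul_fst, smul_eq_mul, mul_one]
    exact inv_pos.2 (Real.sqrt_pos.2 O)
  · rw [(I i l).1, e0, ← P.eq _ (hm _), pd_prod s, bg_nrm, mul_zero, neg_zero]
  · rw [(I i l).1, (I l l).1, e0, ← P.eq _ (hm _), pd_prod s, pd_prod s, (K _ _).1,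
      ten_psi _ hy hσ]
    rfl
  · rw [(I i l).2, e2, bg_nrm, mul_zero, neg_zero, add_zero, pd_prod s, pd_prod s, (K _ _).2,
      ten_psi _ hy hσ]
    rfl

/-- **JP.** -/
theorem jp : JP := fun M a r0 ha hM h1 h2 => by
  obtain ⟨ε0, δ, G, H, hG, hB⟩ := gb2 M a r0 ha hM h1 h2
  obtain ⟨δ1, C, K, hK⟩ := P354KF.isKF hG P354E3.ten_pb P354KF.kf P354E3.pdk P354E3.geo
    P354N2.sta_main (P354W2.wit P354E3.ten_pb P354E3.pdk)
  exact ⟨ε0, δ, δ1, C, G, H, K, hG, ⟨hB.smooth, hB.pos, hB.even, hB.init,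
    fun p hp b σ t => iso hG hB hp b σ t, fun p hp b t ht => ind hG hB hp b t ht, hB.ode⟩, hK⟩

end Vale.Agent.P354YJ
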