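import Vale.Agent.P354YJ.Defs

/-!
ROTL: the rotation to the symmetric frame is Lipschitz for the angular derivatives.
-/

open scoped ContDiff
open Set Filter Topology

noncomputable section

namespace Vale.Agent.P354YJ

open Vale.Agent.P354H (X3 pd pdl e)
open Vale.Agent.P354C Vale.Agent.P354C.Ix
open Vale.Agent.P354J (TT GT gtL gtL_apply)

section
variable {V W : Type} [NormedAddCommGroup V] [NormedSpace ℝ V] [NormedAddCommGroup W]
  [NormedSpace ℝ W] {z : X3}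

lemma pdl_ev {f g : X3 → V} (h : f =ᶠ[𝓝 z] g) (α : List (Fin 3)) : pdl α f z = pdl α g z := by
  induction α generalizing f g with
  | nil => exact h.eq_of_nhds
  | cons j α ih =>
    exact ih ((h.fderiv (𝕜 := ℝ)).mono fun y hy => congrArg (fun L : X3 →L[ℝ] V => L (e j)) hy)

lemma at_pd {f : X3 → V} (h : ContDiffAt ℝ ∞ f z) (j : Fin 3) : ContDiffAt ℝ ∞ (pd j f) z :=
  (h.fderiv_right (m := ∞) le_rfl).clm_apply contDiffAt_const

lemma at_ev {f : X3 → V} (h : ContDiffAt ℝ ∞ f z) : ∀ᶠ y in 𝓝 z, DifferentiableAt ℝ f y :=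
  ((h.of_le (m := 1) (by simp)).eventually (by simp)).mono fun _ hy =>
    hy.differentiableAt (by simp)

lemma ev_clm (L : V →L[ℝ] W) {f : X3 → V} (h : ContDiffAt ℝ ∞ f z) (j : Fin 3) :
    (pd j fun y => L (f y)) =ᶠ[𝓝 z] fun y => L (pd j f y) :=
  (at_ev h).mono fun y hy =>
    congrArg (fun M : X3 →L[ℝ] W => M (e j)) (L.hasFDerivAt.comp y hy.hasFDerivAt).fderiv

lemma at_clm (L : V →L[ℝ] W) (α : List (Fin 3)) {f : X3 → V} (h : ContDiffAt ℝ ∞ f z) :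
    pdl α (fun y => L (f y)) z = L (pdl α f z) := by
  induction α generalizing f with
  | nil => rfl
  | cons j α ih => exact (pdl_ev (ev_clm L h j) α).trans (ih (at_pd h j))

lemma ev_sub {f g : X3 → V} (h : ContDiffAt ℝ ∞ f z) (h' : ContDiffAt ℝ ∞ g z) (j : Fin 3) :
    (pd j fun y => f y - g y) =ᶠ[𝓝 z] fun y => pd j f y - pd j g y := by
  filter_upwards [at_ev h, at_ev h'] with y h1 h2
  unfold pd
  rw [fderiv_fun_sub h1 h2]
  rfl

/-- The angular derivatives of order at most m at z are at most c. -/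
def Av (m : ℕ) (f : X3 → V) (z : X3) (c : ℝ) : Prop :=
  ∀ α : List (Fin 3), α.length ≤ m → (0 : Fin 3) ∉ α → ‖pdl α f z‖ ≤ c

lemma Av.mono {m m' : ℕ} {f : X3 → V} {c c' : ℝ} (h : Av m f z c) (hm : m' ≤ m) (hc : c ≤ c') :
    Av m' f z c' := fun α hα h0 => (h α (hα.trans hm) h0).trans hc

lemma Av.zero {m : ℕ} {f : X3 → V} {c : ℝ} (h : Av m f z c) : ‖f z‖ ≤ c :=
  h [] (Nat.zero_le _) List.not_mem_nil

lemma Av.ev {m : ℕ} {f g : X3 → V} {c : ℝ} (h : Av m f z c) (k : g =ᶠ[𝓝 z] f) : Av m g z c :=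
  fun α h1 h2 => pdl_ev k α ▸ h α h1 h2

lemma Av.pd {m : ℕ} {f : X3 → V} {c : ℝ} (h : Av (m + 1) f z c) {j : Fin 3} (hj : j ≠ 0) :
    Av m (pd j f) z c := fun α hα h0 =>
  h (j :: α) (by simpa using hα) fun k => (List.mem_cons.1 k).elim hj.symm h0

lemma Av.of_zero {f : X3 → V} {c : ℝ} (h : ‖f z‖ ≤ c) : Av 0 f z c := fun α hα _ => by
  rw [List.length_eq_zero_iff.1 (Nat.le_zero.1 hα)]
  exact h

lemma Av.succ {m : ℕ} {f : X3 → V} {c : ℝ} (h0 : ‖f z‖ ≤ c)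
    (h : ∀ j ≠ 0, Av m (P354H.pd j f) z c) : Av (m + 1) f z c := by
  intro α hα k
  cases α with
  | nil => exact h0
  | cons j α =>
    exact h j (fun e => k (e ▸ List.mem_cons_self)) α (by simpa using hα)
      fun e => k (List.mem_cons_of_mem _ e)

lemma Av.pair {m : ℕ} {f : X3 → V} {g : X3 → W} {c : ℝ} (hf : ContDiffAt ℝ ∞ f z)
    (hg : ContDiffAt ℝ ∞ g z) (h : Av m f z c) (h' : Av m g z c) :
    Av m (fun y => (f y, g y)) z c := by
  intro α h1 h2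
  rw [Prod.norm_def]
  refine max_le ?_ ?_
  · exact (congrArg norm (at_clm (ContinuousLinearMap.fst ℝ V W) α (hf.prodMk hg))).symm.trans_le
      (h α h1 h2)
  · exact (congrArg norm (at_clm (ContinuousLinearMap.snd ℝ V W) α (hf.prodMk hg))).symm.trans_le
      (h' α h1 h2)

/-- Two functions with bounded angular derivatives at z which are close. -/
structure Ta (m : ℕ) (B ε : ℝ) (z : X3) (f g : X3 → V) : Prop where
  sf : ContDiffAt ℝ ∞ f z
  sg : ContDiffAt ℝ ∞ g z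
  bf : Av m f z B
  bg : Av m g z B
  bd : Av m (fun y => f y - g y) z ε

lemma Ta.mono {m m' : ℕ} {B B' ε ε' : ℝ} {f g : X3 → V} (h : Ta m B ε z f g)
    (hm : m' ≤ m) (hB : B ≤ B') (hε : ε ≤ ε') : Ta m' B' ε' z f g :=
  ⟨h.sf, h.sg, h.bf.mono hm hB, h.bg.mono hm hB, h.bd.mono hm hε⟩

lemma Ta.ev {m : ℕ} {B ε : ℝ} {f g f' g' : X3 → V} (h : Ta m B ε z f g) (k : f' =ᶠ[𝓝 z] f)
    (k' : g' =ᶠ[𝓝 z] g) : Ta m B ε z f' g' :=
  ⟨h.sf.congr_of_eventuallyEq k, h.sg.congr_of_eventuallyEq k', h.bf.ev k, h.bg.ev k',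
    h.bd.ev (k.sub k')⟩

lemma Ta.pd {m : ℕ} {B ε : ℝ} {f g : X3 → V} (h : Ta (m + 1) B ε z f g) {j : Fin 3}
    (hj : j ≠ 0) : Ta m B ε z (pd j f) (pd j g) :=
  ⟨at_pd h.sf j, at_pd h.sg j, h.bf.pd hj, h.bg.pd hj, (h.bd.pd hj).ev (ev_sub h.sf h.sg j).symm⟩

lemma Ta.pair {m : ℕ} {B ε : ℝ} {f g : X3 → V} {f' g' : X3 → W} (h : Ta m B ε z f g)
    (h' : Ta m B ε z f' g') : Ta m B ε z (fun y => (f y, f' y)) (fun y => (g y, g' y)) :=
  ⟨h.sf.prodMk h'.sf, h.sg.prodMk h'.sg, Av.pair h.sf h'.sf h.bf h'.bf,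
    Av.pair h.sg h'.sg h.bg h'.bg, Av.pair (h.sf.sub h.sg) (h'.sf.sub h'.sg) h.bd h'.bd⟩

lemma ev_comp {F : V → W} {f : X3 → V} (hF : ContDiffAt ℝ ∞ F (f z)) (hf : ContDiffAt ℝ ∞ f z)
    (j : Fin 3) : (pd j fun y => F (f y)) =ᶠ[𝓝 z] fun y => fderiv ℝ F (f y) (pd j f y) := by
  filter_upwards [at_ev hf, hf.continuousAt.eventually
    ((hF.of_le (m := 1) (by simp)).eventually (by simp))] with y h1 h2
  exact congrArg (fun M : X3 →L[ℝ] W => M (e j))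
    ((h2.differentiableAt (by simp)).hasFDerivAt.comp y h1.hasFDerivAt).fderiv

/-- A smooth map is bounded and Lipschitz on a compact set. -/
lemma lip_cpt {F : V → W} {Q : Set V} (hc : IsCompact Q) (hF : ∀ a ∈ Q, ContDiffAt ℝ ∞ F a) :
    ∃ C, 0 ≤ C ∧ ∀ a ∈ Q, ‖F a‖ ≤ C ∧ ∀ b ∈ Q, ‖F a - F b‖ ≤ C * ‖a - b‖ := by
  obtain ⟨C1, hC1⟩ := hc.exists_bound_of_continuousOn fun a ha =>
    (hF a ha).continuousAt.continuousWithinAt
  obtain ⟨K, hK⟩ := LocallyLipschitzOn.exists_lipschitzOnWith_of_compact (f := F) hc fun a ha => by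
    obtain ⟨K, t, ht, h⟩ := ((hF a ha).of_le (m := 1) (by simp)).exists_lipschitzOnWith
    exact ⟨K, t, mem_nhdsWithin_of_mem_nhds ht, h⟩
  refine ⟨max C1 K, le_max_of_le_right K.2, fun a ha => ⟨(hC1 a ha).trans (le_max_left _ _),
    fun b hb => ?_⟩⟩
  rw [← dist_eq_norm, ← dist_eq_norm]
  exact (hK.dist_le_mul a ha b hb).trans
    (mul_le_mul_of_nonneg_right (le_max_right _ _) dist_nonneg)

end

/-- Composition with a smooth map is Lipschitz for the angular derivatives at a point. -/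
theorem Ta.comp (m : ℕ) : ∀ (V W : Type) [NormedAddCommGroup V] [NormedSpace ℝ V]
    [FiniteDimensional ℝ V] [NormedAddCommGroup W] [NormedSpace ℝ W] (F : V → W) (Q : Set V)
    (B : ℝ), IsCompact Q → (∀ a ∈ Q, ContDiffAt ℝ ∞ F a) →
    ∃ C, 0 ≤ C ∧ ∀ ε z (f g : X3 → V), Ta m B ε z f g → f z ∈ Q → g z ∈ Q →
      Ta m C (C * ε) z (fun y => F (f y)) (fun y => F (g y)) := by
  induction m with
  | zero =>
    intro V W _ _ _ _ _ F Q B hc hF
    obtain ⟨C, hC0, hC⟩ := lip_cpt hc hF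
    exact ⟨C, hC0, fun ε z f g h hf hg => ⟨(hF _ hf).comp z h.sf, (hF _ hg).comp z h.sg,
      Av.of_zero (hC _ hf).1, Av.of_zero (hC _ hg).1,
      Av.of_zero (((hC _ hf).2 _ hg).trans (mul_le_mul_of_nonneg_left h.bd.zero hC0))⟩⟩
  | succ m ih =>
    intro V W _ _ _ _ _ F Q B hc hF
    obtain ⟨C, hC0, hC⟩ := lip_cpt hc hF
    obtain ⟨C', hC0', hC'⟩ := ih (V × V) W (fun p : V × V => fderiv ℝ F p.1 p.2)
      (Q ×ˢ Metric.closedBall 0 B) B (hc.prod (isCompact_closedBall _ _)) fun p hp =>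
        (((hF _ hp.1).fderiv_right (m := ∞) le_rfl).comp p contDiffAt_fst).clm_apply contDiffAt_snd
    refine ⟨max C C', le_max_of_le_left hC0, fun ε z f g h hf hg => ?_⟩
    have hε := (norm_nonneg _).trans h.bd.zero
    have key : ∀ j ≠ 0, Ta m (max C C') (max C C' * ε) z (P354H.pd j fun y => F (f y))
        (P354H.pd j fun y => F (g y)) := fun j hj =>
      ((hC' ε z (fun y => (f y, P354H.pd j f y)) (fun y => (g y, P354H.pd j g y))
        ((h.mono (Nat.le_succ m) le_rfl le_rfl).pair (h.pd hj))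
        ⟨hf, mem_closedBall_zero_iff.2 (h.bf.pd hj).zero⟩
        ⟨hg, mem_closedBall_zero_iff.2 (h.bg.pd hj).zero⟩).mono le_rfl (le_max_right _ _)
        (mul_le_mul_of_nonneg_right (le_max_right _ _) hε)).ev (ev_comp (hF _ hf) h.sf j)
        (ev_comp (hF _ hg) h.sg j)
    have sf : ContDiffAt ℝ ∞ (fun y => F (f y)) z := (hF _ hf).comp z h.sf
    have sg : ContDiffAt ℝ ∞ (fun y => F (g y)) z := (hF _ hg).comp z h.sg
    exact ⟨sf, sg, Av.succ ((hC _ hf).1.trans (le_max_left _ _)) fun j hj => (key j hj).bf,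
      Av.succ ((hC _ hg).1.trans (le_max_left _ _)) fun j hj => (key j hj).bg,
      Av.succ (((hC _ hf).2 _ hg).trans
        (mul_le_mul (le_max_left _ _) h.bd.zero (norm_nonneg _) (le_max_of_le_left hC0)))
        fun j hj => (key j hj).bd.ev (ev_sub sf sg j)⟩

/-! ### The rotation is smooth -/

/-- The values of the unknowns. -/
abbrev VV : Type := Ix → ℝ

lemma nn_pos' {U : VV} (h : 0 < detP U) : 0 < nn U := by
  unfold detP at h
  unfold nn al be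
  nlinarith [sq_nonneg (U P11 - U P22), sq_nonneg (U P12 + U P21)]

section
variable {E : Type} [NormedAddCommGroup E] [NormedSpace ℝ E] {x : E} {U D D1 D2 : E → VV}

lemma sm_co (h : ContDiffAt ℝ ∞ U x) (i : Ix) : ContDiffAt ℝ ∞ (fun y => U y i) x :=
  contDiffAt_pi.1 h i

lemma sm_al (h : ContDiffAt ℝ ∞ U x) : ContDiffAt ℝ ∞ (fun y => al (U y)) x :=
  (sm_co h _).add (sm_co h _)

lemma sm_be (h : ContDiffAt ℝ ∞ U x) : ContDiffAt ℝ ∞ (fun y => be (U y)) x :=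
  (sm_co h _).sub (sm_co h _)

lemma sm_nn (h : ContDiffAt ℝ ∞ U x) : ContDiffAt ℝ ∞ (fun y => nn (U y)) x :=
  ((sm_al h).pow 2).add ((sm_be h).pow 2)

lemma sm_cs (h : ContDiffAt ℝ ∞ U x) (h0 : 0 < nn (U x)) :
    ContDiffAt ℝ ∞ (fun y => cs (U y)) x :=
  (sm_al h).div ((sm_nn h).sqrt h0.ne') (Real.sqrt_pos.2 h0).ne'

lemma sm_sn (h : ContDiffAt ℝ ∞ U x) (h0 : 0 < nn (U x)) :
    ContDiffAt ℝ ∞ (fun y => sn (U y)) x :=
  (sm_be h).div ((sm_nn h).sqrt h0.ne') (Real.sqrt_pos.2 h0).ne'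

lemma sm_da (h : ContDiffAt ℝ ∞ U x) (h0 : 0 < nn (U x)) (hD : ContDiffAt ℝ ∞ D x) :
    ContDiffAt ℝ ∞ (fun y => da (U y) (D y)) x :=
  (((sm_al h).mul (sm_be hD)).sub ((sm_be h).mul (sm_al hD))).div (sm_nn h) h0.ne'

lemma sm_e2 (h : ContDiffAt ℝ ∞ U x) (h1 : ContDiffAt ℝ ∞ D1 x) (h2 : ContDiffAt ℝ ∞ D2 x)
    (i : Ix) : ContDiffAt ℝ ∞ (fun y => e2 (U y) (D1 y) (D2 y) i) x :=
  ((sm_co h _).mul (sm_co h1 i)).add ((sm_co h _).mul (sm_co h2 i))

lemma sm_e3 (h : ContDiffAt ℝ ∞ U x) (h1 : ContDiffAt ℝ ∞ D1 x) (h2 : ContDiffAt ℝ ∞ D2 x)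
    (i : Ix) : ContDiffAt ℝ ∞ (fun y => e3 (U y) (D1 y) (D2 y) i) x :=
  ((sm_co h _).mul (sm_co h1 i)).add ((sm_co h _).mul (sm_co h2 i))

lemma sm_TT (h : ContDiffAt ℝ ∞ U x) (s t : Fin 3) (m : Fin 4) :
    ContDiffAt ℝ ∞ (fun y => TT (U y) s t m) x := by
  have k : ∀ s j k, ContDiffAt ℝ ∞ (fun y => GT (U y) s j k) x := fun s j k => by
    simp only [← gtL_apply]
    exact (LinearMap.toContinuousLinearMap (gtL s j k)).contDiff.contDiffAt.comp x h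
  exact (ContDiffAt.sum fun y _ => contDiffAt_const.mul (k _ _ _)).sub
    (ContDiffAt.sum fun y _ => contDiffAt_const.mul (k _ _ _))

lemma sm_d0 (h : ContDiffAt ℝ ∞ U x) (h1 : ContDiffAt ℝ ∞ D1 x) (h2 : ContDiffAt ℝ ∞ D2 x) :
    ContDiffAt ℝ ∞ (fun y => d0 (U y) (D1 y) (D2 y)) x := by
  refine contDiffAt_pi.2 fun i => ?_
  have k := fun s t m i => (sm_TT h s t m).mul (sm_co h i)
  cases i
  case P11 => exact ((sm_e2 h h1 h2 _).add (k _ _ _ _)).add (k _ _ _ _)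
  case P12 => exact ((sm_e2 h h1 h2 _).add (k _ _ _ _)).add (k _ _ _ _)
  case P21 => exact ((sm_e3 h h1 h2 _).add (k _ _ _ _)).add (k _ _ _ _)
  case P22 => exact ((sm_e3 h h1 h2 _).add (k _ _ _ _)).add (k _ _ _ _)
  all_goals exact contDiffAt_const (c := 0)

lemma sm_rot {c s f0 f1 f2 : E → ℝ} (hc : ContDiffAt ℝ ∞ c x) (hs : ContDiffAt ℝ ∞ s x)
    (h0 : ContDiffAt ℝ ∞ f0 x) (h1 : ContDiffAt ℝ ∞ f1 x) (h2 : ContDiffAt ℝ ∞ f2 x)
    (h : ContDiffAt ℝ ∞ U x) :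
    ContDiffAt ℝ ∞ (fun y => rot (c y) (s y) ![f0 y, f1 y, f2 y] (U y)) x := by
  refine contDiffAt_pi.2 fun i => ?_
  have k := sm_co h
  cases i <;> simp only [rot, Matrix.cons_val_zero, Matrix.cons_val_one, Matrix.cons_val] <;>
    fun_prop

lemma sm_Rt (h : ContDiffAt ℝ ∞ U x) (h0 : 0 < nn (U x)) (h1 : ContDiffAt ℝ ∞ D1 x)
    (h2 : ContDiffAt ℝ ∞ D2 x) : ContDiffAt ℝ ∞ (fun y => Rt (U y) (D1 y) (D2 y)) x :=
  sm_rot (sm_cs h h0) (sm_sn h h0) (sm_da h h0 (sm_d0 h h1 h2))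
    (sm_da h h0 (contDiffAt_pi.2 (sm_e2 h h1 h2))) (sm_da h h0 (contDiffAt_pi.2 (sm_e3 h h1 h2))) h

end

/-- The values of bounded size with determinant bounded below. -/
def QQr (c0 B : ℝ) : Set VV := Metric.closedBall 0 B ∩ {U | c0 ≤ detP U}

lemma QQr_cpt (c0 B : ℝ) : IsCompact (QQr c0 B) :=
  (isCompact_closedBall _ _).inter_right (isClosed_le continuous_const (by unfold detP; fun_prop))

lemma vv_le {U : VV} {c : ℝ} (h : ∀ i, |U i| ≤ c) : ‖U‖ ≤ c :=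
  (pi_norm_le_iff_of_nonneg ((abs_nonneg _).trans (h O))).2 h

lemma av_pi {m : ℕ} {u : X3 → VV} {z : X3} {c : ℝ} (h : ContDiffAt ℝ ∞ u z) :
    Av m u z c ↔ ∀ i, Ab m (fun y => u y i) z c := by
  have k := fun α i => at_clm (ContinuousLinearMap.proj i : VV →L[ℝ] ℝ) α h
  refine ⟨fun H i α h1 h2 => ?_, fun H α h1 h2 => ?_⟩
  · exact (congrArg abs (k α i)).trans_le ((norm_le_pi_norm (pdl α u z) i).trans (H α h1 h2))
  · exact vv_le fun i => (congrArg abs (k α i)).symm.trans_le (H i α h1 h2)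

lemma RT_ev {u : X3 → VV} {z : X3} (h : ContDiffAt ℝ ∞ u z) :
    RT u =ᶠ[𝓝 z] fun y => Rt (u y) (pd 1 u y) (pd 2 u y) := by
  have k : ∀ j, ∀ᶠ y in 𝓝 z, ∀ i, pd j (fun y => u y i) y = pd j u y i := fun j =>
    eventually_all.2 fun i => ev_clm (ContinuousLinearMap.proj i : VV →L[ℝ] ℝ) h j
  filter_upwards [k 1, k 2] with y h1 h2
  rw [RT, funext h1, funext h2]

/-- The entries of P from U', the others from U. -/
def mx (U U' : VV) : VV
  | .P11 => U' P11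
  | .P12 => U' P12
  | .P21 => U' P21
  | .P22 => U' P22
  | i => U i

/-- **ROTL.** -/
theorem rotl : ROTL := by
  intro m c0 B h0
  obtain ⟨C, hC0, hC⟩ := Ta.comp m (VV × VV × VV) VV (fun p => Rt p.1 p.2.1 p.2.2)
    (QQr c0 B ×ˢ Metric.closedBall 0 B ×ˢ Metric.closedBall 0 B) B
    ((QQr_cpt c0 B).prod ((isCompact_closedBall _ _).prod (isCompact_closedBall _ _))) fun p hp =>
      sm_Rt contDiffAt_fst (nn_pos' (h0.trans_le hp.1.2)) contDiffAt_snd.fst contDiffAt_snd.snd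
  obtain ⟨L, hL0, hL⟩ := lip_cpt (F := fun U : VV => (cs U * cs U - sn U * sn U, 2 * (cs U * sn U)))
    (QQr_cpt c0 B) fun U hU => by
      have k1 := sm_cs (U := id) contDiffAt_id (nn_pos' (h0.trans_le hU.2))
      have k2 := sm_sn (U := id) contDiffAt_id (nn_pos' (h0.trans_le hU.2))
      exact ((k1.mul k1).sub (k2.mul k2)).prodMk (contDiffAt_const.mul (k1.mul k2))
  refine ⟨max C (2 * (L * B)), le_max_of_le_left hC0, fun u u' z ε s d d' b => ?_⟩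
  have s1 : ContDiffAt ℝ ∞ u z := contDiffAt_pi.2 fun i => (s i).1
  have s2 : ContDiffAt ℝ ∞ u' z := contDiffAt_pi.2 fun i => (s i).2
  have T : Ta (m + 1) B ε z u' u := ⟨s2, s1, (av_pi s2).2 fun i => (b i).2.1,
    (av_pi s1).2 fun i => (b i).1, (av_pi (s2.sub s1)).2 fun i => (b i).2.2⟩
  have q1 : u z ∈ QQr c0 B := ⟨mem_closedBall_zero_iff.2 T.bg.zero, d⟩
  have q2 : u' z ∈ QQr c0 B := ⟨mem_closedBall_zero_iff.2 T.bf.zero, d'⟩
  have T1 := T.pd (j := 1) (by decide)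
  have T2 := T.pd (j := 2) (by decide)
  have R := ((hC ε z _ _ ((T.mono (Nat.le_succ m) le_rfl le_rfl).pair (T1.pair T2))
    ⟨q2, mem_closedBall_zero_iff.2 T1.bf.zero, mem_closedBall_zero_iff.2 T2.bf.zero⟩
    ⟨q1, mem_closedBall_zero_iff.2 T1.bg.zero, mem_closedBall_zero_iff.2 T2.bg.zero⟩).ev
    (RT_ev s2) (RT_ev s1)).mono le_rfl (le_max_left _ (2 * (L * B)))
    (mul_le_mul_of_nonneg_right (le_max_left _ (2 * (L * B))) ((norm_nonneg _).trans T.bd.zero))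
  refine ⟨fun i => ⟨(av_pi R.sg).1 R.bg i, (av_pi (R.sf.sub R.sg)).1 R.bd i⟩, fun η hη i hi => ?_⟩
  have η0 : 0 ≤ η := (abs_nonneg _).trans (hη P11 (by simp))
  have bu : ∀ i, |u z i| ≤ B := fun i => (norm_le_pi_norm (u z) i).trans T.bg.zero
  have bu' : ∀ i, |u' z i| ≤ B := fun i => (norm_le_pi_norm (u' z) i).trans T.bf.zero
  have q3 : mx (u z) (u' z) ∈ QQr c0 B := by
    refine ⟨mem_closedBall_zero_iff.2 (vv_le fun i => ?_), d'⟩
    cases i <;> first | exact bu _ | exact bu' _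
  have n3 : ‖mx (u z) (u' z) - u z‖ ≤ η := by
    refine vv_le fun i => ?_
    cases i <;> first
      | exact (congrArg abs (sub_self _)).trans_le (abs_zero.trans_le η0)
      | exact hη _ (by decide)
  have l := ((hL _ q3).2 _ q1).trans (mul_le_mul_of_nonneg_left n3 hL0)
  have l1 : |cs (u' z) * cs (u' z) - sn (u' z) * sn (u' z) -
      (cs (u z) * cs (u z) - sn (u z) * sn (u z))| ≤ L * η := (norm_fst_le _).trans l
  have l2 : |2 * (cs (u' z) * sn (u' z)) - 2 * (cs (u z) * sn (u z))| ≤ L * η :=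
    (norm_snd_le _).trans l
  have fin : ∀ {x y a b w : ℝ}, |x| ≤ L * η → |y| ≤ L * η → |a| ≤ B → |b| ≤ B →
      w = x * a + y * b → |w| ≤ max C (2 * (L * B)) * η := by
    intro x y a b w h1 h2 h3 h4 h5
    have k := mul_nonneg hL0 η0
    rw [h5]
    refine (abs_add_le _ _).trans ?_
    rw [abs_mul, abs_mul]
    have k1 := mul_le_mul h1 h3 (abs_nonneg _) k
    have k2 := mul_le_mul h2 h4 (abs_nonneg _) k
    have k3 := mul_le_mul_of_nonneg_right (le_max_right C (2 * (L * B))) η0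
    linarith
  simp only [List.mem_cons, List.not_mem_nil, or_false] at hi
  rcases hi with rfl | rfl | rfl | rfl
  · exact fin l1 l2 (bu' a1) (bu' a2) (by simp only [RT, Rt, rot, Pi.sub_apply]; ring)
  · exact fin l1 l2 (bu' a2) ((abs_neg _).trans_le (bu' a1))
      (by simp only [RT, Rt, rot, Pi.sub_apply]; ring)
  · exact fin l1 l2 (bu' ab1) (bu' ab2) (by simp only [RT, Rt, rot, Pi.sub_apply]; ring)
  · exact fin l1 l2 (bu' ab2) ((abs_neg _).trans_le (bu' ab1))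
      (by simp only [RT, Rt, rot, Pi.sub_apply]; ring)

end Vale.Agent.P354YJ
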