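import Vale.Agent.P354YJ.RotB

/-!
ROT: the constraints in a frame rotated by a smooth angle, and the initial values of the induced
data.
-/

open scoped ContDiff
open Set Filter Topology Matrix

noncomputable section

namespace Vale.Agent.P354YJ

open Vale.Agent.P354H (X3 pd e)
open Vale.Agent.P354C Vale.Agent.P354C.Ix Vale.Agent.P354J

/-- The vectors l - n, e2, e3 on the slice. -/
def wv (U : Ix → ℝ) : Fin 3 → X3 := ![(2, U b1, U b2), (0, U P11, U P12), (0, U P21, U P22)]

/-- The derivative of u in the direction v. -/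
def du (u : X3 → Ix → ℝ) (y v : X3) (i : Ix) : ℝ := fderiv ℝ (fun z => u z i) y v

/-- The differential of the angle, and its values on l - n, e2, e3. -/
def omg (c s : X3 → ℝ) (z : X3) : X3 →L[ℝ] ℝ := c z • fderiv ℝ s z - s z • fderiv ℝ c z
def ang (u : X3 → Ix → ℝ) (c s : X3 → ℝ) (z : X3) (r : Fin 3) : ℝ := omg c s z (wv (u z) r)

/-- The unknowns in the rotated frame. -/
def rotF (u : X3 → Ix → ℝ) (c s : X3 → ℝ) (z : X3) : Ix → ℝ := rot (c z) (s z) (ang u c s z) (u z)

lemma lin3 (L : X3 →L[ℝ] ℝ) (x y z : ℝ) :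
    L (x, y, z) = x * L (e 0) + y * L (e 1) + z * L (e 2) := by
  have : ((x, y, z) : X3) = x • e 0 + y • e 1 + z • e 2 := by simp [e]
  rw [this]
  simp only [map_add, map_smul, smul_eq_mul]

lemma DT_du (u : X3 → Ix → ℝ) (y : X3) (r : Fin 3) : DT (dsl u y) r = du u y (wv (u y) r) := by
  rw [DT_dsl]
  funext i
  fin_cases r <;> simp [cT, fd, du, wv, Eu, pd, lin3, Fin.sum_univ_three] <;> ring

variable {u : X3 → Ix → ℝ} {c s : X3 → ℝ} {y : X3}

lemma d_cs (hc : DifferentiableAt ℝ c y) (hs : DifferentiableAt ℝ s y)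
    (h : ∀ᶠ z in 𝓝 y, c z ^ 2 + s z ^ 2 = 1) (v : X3) :
    fderiv ℝ c y v = -(s y * omg c s y v) ∧ fderiv ℝ s y v = c y * omg c s y v := by
  have h0 := h.self_of_nhds
  have h1 : fderiv ℝ (fun z => c z * c z + s z * s z) y = fderiv ℝ (fun _ : X3 => (1 : ℝ)) y :=
    EventuallyEq.fderiv_eq (h.mono fun z hz => by simpa only [sq] using hz)
  have h2 := congrArg (fun L : X3 →L[ℝ] ℝ => L v) h1
  rw [fderiv_fun_add (hc.fun_mul hc) (hs.fun_mul hs), fderiv_fun_mul hc hc, fderiv_fun_mul hs hs] at h2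
  simp only [_root_.add_apply, _root_.smul_apply, smul_eq_mul,
    fderiv_fun_const, Pi.zero_apply, _root_.zero_apply] at h2
  simp only [omg, _root_.sub_apply, _root_.smul_apply, smul_eq_mul]
  constructor <;> grind

lemma d_rot {F : X3 → Fin 3 → ℝ} (hu : ∀ i, DifferentiableAt ℝ (fun z => u z i) y)
    (hF : ∀ r, DifferentiableAt ℝ (fun z => F z r) y) (hc : DifferentiableAt ℝ c y)
    (hs : DifferentiableAt ℝ s y) (v : X3) {w : ℝ} (e1 : fderiv ℝ c y v = -(s y * w))
    (e2 : fderiv ℝ s y v = c y * w) :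
    du (fun z => rot (c z) (s z) (F z) (u z)) y v = rot (c y) (s y) 0 ((1 : ℝ) •
      sh (fun r => fderiv ℝ (fun z => F z r) y v) (du u y v) + w • inf (sh (F y) (u y))) := by
  funext i
  cases i <;> simp only [du, rot] <;>
    simp (disch := fun_prop) only [fderiv_fun_add, fderiv_fun_sub, fderiv_fun_mul,
      fderiv_fun_const, _root_.add_apply, _root_.sub_apply,
      _root_.smul_apply, smul_eq_mul, e1, e2, Pi.add_apply, Pi.smul_apply, sh, inf,
      du, Pi.zero_apply, _root_.zero_apply] <;> ring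

lemma rot_lin (c s x x' : ℝ) (U W : Ix → ℝ) :
    rot c s 0 (x • U + x' • W) = x • rot c s 0 U + x' • rot c s 0 W := by
  funext i
  cases i <;> simp [rot] <;> ring

lemma omg_closed (hc : ContDiffAt ℝ ∞ c y) (hs : ContDiffAt ℝ ∞ s y)
    (h : ∀ᶠ z in 𝓝 y, c z ^ 2 + s z ^ 2 = 1) : ContDiffAt ℝ ∞ (omg c s) y ∧
    ∀ a b, fderiv ℝ (omg c s) y a b = fderiv ℝ (omg c s) y b a := by
  have c1 : ContDiffAt ℝ ∞ (fderiv ℝ c) y := hc.fderiv_right (m := ∞) le_rfl
  have s1 : ContDiffAt ℝ ∞ (fderiv ℝ s) y := hs.fderiv_right (m := ∞) le_rfl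
  have c0 := hc.differentiableAt (by simp)
  have s0 := hs.differentiableAt (by simp)
  refine ⟨(hc.smul s1).sub (hs.smul c1), fun a b => ?_⟩
  have k1 := ((hc.of_le (m := 2) (by norm_cast)).isSymmSndFDerivAt (by simp)).eq a b
  have k2 := ((hs.of_le (m := 2) (by norm_cast)).isSymmSndFDerivAt (by simp)).eq a b
  have k3 := (c0.hasFDerivAt.smul (s1.differentiableAt (by simp)).hasFDerivAt).sub
    (s0.hasFDerivAt.smul (c1.differentiableAt (by simp)).hasFDerivAt)
  have k4 : fderiv ℝ (omg c s) y = _ := k3.fderiv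
  obtain ⟨a1, a2⟩ := d_cs c0 s0 h a
  obtain ⟨b1, b2⟩ := d_cs c0 s0 h b
  simp only [k4, _root_.add_apply, _root_.sub_apply,
    _root_.smul_apply, ContinuousLinearMap.smulRight_apply, smul_eq_mul, k1, k2, a1,
    a2, b1, b2]
  ring

lemma d_wv (hu : ∀ i, ContDiffAt ℝ ∞ (fun z => u z i) y) (r : Fin 3) :
    ContDiffAt ℝ ∞ (fun z => wv (u z) r) y ∧ ∀ v, fderiv ℝ (fun z => wv (u z) r) y v =
      ![(0, du u y v b1, du u y v b2), (0, du u y v P11, du u y v P12),
        (0, du u y v P21, du u y v P22)] r := by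
  have k : ∀ (x : ℝ) (i j : Ix), ContDiffAt ℝ ∞ (fun z => ((x, u z i, u z j) : X3)) y ∧
      ∀ v, fderiv ℝ (fun z => ((x, u z i, u z j) : X3)) y v = (0, du u y v i, du u y v j) :=
    fun x i j => ⟨contDiffAt_const.prodMk ((hu i).prodMk (hu j)), fun v => by
      rw [((hasFDerivAt_const x y).prodMk ((((hu i).differentiableAt (by simp)).hasFDerivAt).prodMk
        ((hu j).differentiableAt (by simp)).hasFDerivAt)).fderiv]
      rfl⟩
  fin_cases r
  exacts [k 2 b1 b2, k 0 P11 P12, k 0 P21 P22]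

lemma ang_smooth (hu : ∀ i, ContDiffAt ℝ ∞ (fun z => u z i) y) (hc : ContDiffAt ℝ ∞ c y)
    (hs : ContDiffAt ℝ ∞ s y) (r : Fin 3) : ContDiffAt ℝ ∞ (fun z => ang u c s z r) y :=
  ((hc.smul (hs.fderiv_right (m := ∞) le_rfl)).sub
    (hs.smul (hc.fderiv_right (m := ∞) le_rfl))).clm_apply (d_wv hu r).1

lemma rotF_smooth (hu : ∀ i, ContDiffAt ℝ ∞ (fun z => u z i) y) (hc : ContDiffAt ℝ ∞ c y)
    (hs : ContDiffAt ℝ ∞ s y) (i : Ix) : ContDiffAt ℝ ∞ (fun z => rotF u c s z i) y := by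
  have := ang_smooth hu hc hs
  cases i <;> simp only [rotF, rot] <;> fun_prop

/-- The constraints are invariant under rotations by a smooth angle. -/
theorem constr_ang (hu : ∀ i, ContDiffAt ℝ ∞ (fun z => u z i) y) (hc : ContDiffAt ℝ ∞ c y)
    (hs : ContDiffAt ℝ ∞ s y) (h : ∀ᶠ z in 𝓝 y, c z ^ 2 + s z ^ 2 = 1)
    (hC : Constr (u y) (dsl u y)) : Constr (rotF u c s y) (dsl (rotF u c s) y) := by
  have c0 := hc.differentiableAt (by simp)
  have s0 := hs.differentiableAt (by simp)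
  obtain ⟨o1, o2⟩ := omg_closed hc hs h
  have C := c1_of ((constr_iff _ _).1 hC).1
  refine constr_rot (g := fun r q => fderiv ℝ (fun z => ang u c s z q) y (wv (u y) r))
    h.self_of_nhds hC ?_ ?_
  · have k : ∀ q v, fderiv ℝ (fun z => ang u c s z q) y v = fderiv ℝ (omg c s) y v (wv (u y) q) +
        omg c s y (fderiv ℝ (fun z => wv (u z) q) y v) := fun q v => by
      unfold ang
      rw [fderiv_clm_apply (o1.differentiableAt (by simp))
        ((d_wv hu q).1.differentiableAt (by simp))]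
      simp [add_comm]
    let P : Fin 3 → Fin 3 → Prop := fun r q => cm (ang u c s y) (u y)
      (fun r q => fderiv ℝ (fun z => ang u c s z q) y (wv (u y) r)) r q = 0
    have sw : ∀ r q, P r q → P q r := fun r q e => by
      simp only [P, cm, TT_swap (u y) r q] at e ⊢
      linarith
    have sf : ∀ r, P r r := fun r => by
      have : ∀ m, TT (u y) r r m = 0 := fun m => sub_self _
      simp [P, cm, this]
    obtain ⟨a0, -, a2, a3, b0, -, b2, b3, c0, -, c2, c3, -⟩ := C
    simp only [DT_du] at a2 a3 b2 b3 c2 c3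
    have p : P 0 1 ∧ P 0 2 ∧ P 1 2 := by
      simp only [P, cm, k, (d_wv hu _).2, o2 (wv (u y) 0), o2 (wv (u y) 1) (wv (u y) 2), a0, b0, c0,
        cons_val_zero, cons_val_one, cons_val_two, head_cons, tail_cons]
      generalize du u y (wv (u y) 0) = d0 at *
      generalize du u y (wv (u y) 1) = d1 at *
      generalize du u y (wv (u y) 2) = d2 at *
      obtain ⟨A, B, C, hL⟩ : ∃ A B C, ∀ x x' x'', omg c s y (x, x', x'') =
        x * A + x' * B + x'' * C := ⟨_, _, _, lin3 _⟩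
      simp only [ang, wv, cons_val_zero, cons_val_one, cons_val_two, head_cons, tail_cons, hL]
      refine ⟨?_, ?_, ?_⟩
      · linear_combination -B * a2 - C * a3
      · linear_combination -B * b2 - C * b3
      · linear_combination -B * c2 - C * c3
    intro r q
    fin_cases r <;> fin_cases q
    exacts [sf 0, p.1, p.2.1, sw _ _ p.1, sf 1, p.2.2, sw _ _ p.2.1, sw _ _ p.2.2, sf 2]
  · have k : ∀ r, du (rotF u c s) y (wv (u y) r) = rot (c y) (s y) 0 (ds (ang u c s y) (u y)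
        (fun r q => fderiv ℝ (fun z => ang u c s z q) y (wv (u y) r)) (DT (dsl u y)) r) :=
      fun r => by
        rw [ds, DT_du]
        exact d_rot (fun i => (hu i).differentiableAt (by simp))
          (fun r => (ang_smooth hu hc hs r).differentiableAt (by simp)) c0 s0 _
          (d_cs c0 s0 h _).1 (d_cs c0 s0 h _).2
    have l : ∀ (x x' : ℝ) (v v' : X3), du (rotF u c s) y (x • v + x' • v') =
        x • du (rotF u c s) y v + x' • du (rotF u c s) y v' := fun x x' v v' => by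
      funext i
      simp [du]
    funext r
    rw [DT_du]
    fin_cases r
    · exact k 0
    · have : wv (rotF u c s y) 1 = c y • wv (u y) 1 + s y • wv (u y) 2 := by
        simp [wv, rotF, rot]
      simp only [Fin.mk_one, this, l, k]
      rfl
    · have : wv (rotF u c s y) 2 = c y • wv (u y) 2 + (-s y) • wv (u y) 1 := by
        simp [wv, rotF, rot, sub_eq_add_neg]
      simp only [Fin.reduceFinMk, this, l, k]
      rfl

lemma nn_eq (U : Ix → ℝ) :
    nn U = (U P11 - U P22) ^ 2 + (U P12 + U P21) ^ 2 + 4 * detP U := by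
  simp only [nn, al, be, detP]
  ring

lemma nn_pos {U : Ix → ℝ} (h : 0 < detP U) : 0 < nn U := by
  rw [nn_eq]
  positivity

lemma cs_sn {U : Ix → ℝ} (h : 0 < nn U) : cs U ^ 2 + sn U ^ 2 = 1 := by
  rw [cs, sn, div_pow, div_pow, Real.sq_sqrt h.le, ← add_div]
  exact div_self h.ne'

lemma rot_sym {U : Ix → ℝ} (h : 0 < detP U) (f : Fin 3 → ℝ) :
    rot (cs U) (sn U) f U P12 = rot (cs U) (sn U) f U P21 ∧ 0 < rot (cs U) (sn U) f U P11 := by
  have h1 := nn_pos h
  have h2 := Real.sqrt_pos.2 h1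
  have e1 : rot (cs U) (sn U) f U P12 = rot (cs U) (sn U) f U P21 := by
    simp only [rot, cs, sn, al, be]
    ring
  have e2 : rot (cs U) (sn U) f U P11 + rot (cs U) (sn U) f U P22 = nn U / √(nn U) := by
    rw [eq_div_iff h2.ne']
    simp only [rot, cs, sn]
    field_simp
    simp only [nn, al, be]
    ring
  have e3 := detP_rot (cs_sn h1) f U
  have e4 := div_pos h1 h2
  refine ⟨e1, ?_⟩
  rw [detP, ← e1] at e3
  by_contra k
  nlinarith [mul_self_nonneg (rot (cs U) (sn U) f U P12), not_lt.1 k]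

lemma cs_smooth (hu : ∀ i, ContDiffAt ℝ ∞ (fun z => u z i) y) (h : 0 < nn (u y)) :
    ContDiffAt ℝ ∞ (fun z => √(nn (u z))) y ∧ ContDiffAt ℝ ∞ (fun z => cs (u z)) y ∧
      ContDiffAt ℝ ∞ (fun z => sn (u z)) y := by
  have k : ContDiffAt ℝ ∞ (fun z => √(nn (u z))) y :=
    ContDiffAt.sqrt (by simp only [nn, al, be]; fun_prop) h.ne'
  have h2 := (Real.sqrt_pos.2 h).ne'
  exact ⟨k, ((hu P11).add (hu P22)).div k h2, ((hu P21).sub (hu P12)).div k h2⟩

lemma omg_da (hu : ∀ i, ContDiffAt ℝ ∞ (fun z => u z i) y) (h : 0 < nn (u y)) (v : X3) :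
    omg (fun z => cs (u z)) (fun z => sn (u z)) y v = da (u y) (du u y v) := by
  have h2 := (Real.sqrt_pos.2 h).ne'
  have d := fun i => ((hu i).differentiableAt (by simp)).hasFDerivAt
  have n := ((cs_smooth hu h).1.differentiableAt (by simp)).hasFDerivAt
  have n' := (hasDerivAt_inv h2).comp_hasFDerivAt y n
  have k1 : fderiv ℝ (fun z => cs (u z)) y = _ := (((d P11).add (d P22)).mul n').fderiv
  have k2 : fderiv ℝ (fun z => sn (u z)) y = _ := (((d P21).sub (d P12)).mul n').fderiv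
  rw [omg, k1, k2]
  simp only [_root_.add_apply, _root_.sub_apply,
    _root_.smul_apply, smul_eq_mul, da, cs, sn, al, be, du, Pi.add_apply,
    Pi.sub_apply, Function.comp]
  conv_rhs => rw [← Real.mul_self_sqrt h.le]
  field_simp
  ring

lemma RT_eq (hu : ∀ i, ContDiffAt ℝ ∞ (fun z => u z i) y) (h : 0 < nn (u y))
    (hC : Constr (u y) (dsl u y)) :
    RT u y = rotF u (fun z => cs (u z)) (fun z => sn (u z)) y := by
  obtain ⟨-, -, a2, a3, -, -, b2, b3, -⟩ := c1_of ((constr_iff _ _).1 hC).1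
  have e1 : du u y (wv (u y) 1) = e2 (u y) (fun i => pd 1 (fun z => u z i) y)
      fun i => pd 2 (fun z => u z i) y := by
    funext i
    simp [du, wv, lin3, e2, pd]
  have e2' : du u y (wv (u y) 2) = e3 (u y) (fun i => pd 1 (fun z => u z i) y)
      fun i => pd 2 (fun z => u z i) y := by
    funext i
    simp [du, wv, lin3, e3, pd]
  simp only [DT_du, e1, e2'] at a2 a3 b2 b3
  unfold RT Rt rotF
  congr 1
  funext r
  rw [ang, omg_da hu h]
  fin_cases r
  · simp only [Fin.zero_eta, cons_val_zero, da, al, be, d0]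
    congr 1
    linear_combination (u y P11 + u y P22) * (b2 - a3) - (u y P21 - u y P12) * (a2 + b3)
  · simp only [Fin.mk_one, e1]
    rfl
  · simp only [Fin.reduceFinMk, e2']
    rfl

theorem rotThm : ROT := by
  intro h K u D hP hD hu H y hy
  have sm : ∀ y ∈ D, ∀ i, ContDiffAt ℝ ∞ (fun z => u z i) y := fun y hy i =>
    (hu i).contDiffAt (hD.mem_nhds hy)
  rw [RT_eq (sm y hy) (nn_pos (H y hy).2.1) (H y hy).2.2.2]
  refine (cv h K hP _ D hD (fun y hy => ?_) y hy).1.symm
  obtain ⟨h1, h2, h3, h4⟩ := H y hy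
  have k := cs_sn (nn_pos h2)
  obtain ⟨-, c1, s1⟩ := cs_smooth (sm y hy) (nn_pos h2)
  refine ⟨h1, (rot_sym h2 _).2, (detP_rot k _ _).symm ▸ h2, (rot_sym h2 _).1, fun a b => ?_,
    constr_ang (sm y hy) c1 s1 ?_ h4⟩
  · obtain ⟨e1, e2⟩ := ind_rot k (ang u (fun z => cs (u z)) (fun z => sn (u z)) y) (u y) (e a) (e b)
    exact ⟨e1.trans (h3 a b).1, e2.trans (h3 a b).2⟩
  · exact (hD.eventually_mem hy).mono fun z hz => cs_sn (nn_pos (H z hz).2.1)

end Vale.Agent.P354YJ
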