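import Vale.Agent.P354YJ.Defs

/-!
The algebra of the rotation of the angular frame.
-/

open Set Matrix

noncomputable section

namespace Vale.Agent.P354YJ

open Vale.Agent.P354C Vale.Agent.P354C.Ix Vale.Agent.P354J

/-- The matrices of the rotation on l - n, e2, e3 and on the null frame, and the generator. -/
def La (c s : ℝ) : M3 := !![1, 0, 0; 0, c, s; 0, -s, c]
def S4 (c s : ℝ) : M4 := !![1, 0, 0, 0; 0, 1, 0, 0; 0, 0, c, -s; 0, 0, s, c]
def J4 : M4 := !![0, 0, 0, 0; 0, 0, 0, 0; 0, 0, 0, -1; 0, 0, 1, 0]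
def ro (c s : ℝ) (M : M4) : M4 := S4 c (-s) * M * S4 c s

/-- The connection as a matrix. -/
def GM (U : Ix → ℝ) (m : Fin 4) : M4 := Matrix.of (Gam U m)

/-- The curvature defect from the derivatives d along the slice. -/
def cu (U : Ix → ℝ) (d : Fin 3 → Ix → ℝ) (r q : Fin 3) : M4 :=
  GT (d r) q - GT (d q) r + (GT U r * GT U q - GT U q * GT U r) -
    ∑ m, TT U r q m • GM U m - WT U r q

lemma curT_cu (U : Ix → ℝ) (dU : Fin 4 → Ix → ℝ) (r q : Fin 3) (j k : Fin 4) :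
    curT U dU r q j k = cu U (DT dU) r q j k := by
  rw [curT_eq]
  simp only [cu, GM, Matrix.sub_apply, Matrix.add_apply, Matrix.sum_apply, Matrix.smul_apply,
    of_apply, smul_eq_mul]

variable {c s : ℝ}

lemma ro_apply (M : M4) : ro c s M = !![M 0 0, M 0 1, c * M 0 2 + s * M 0 3, c * M 0 3 - s * M 0 2;
    M 1 0, M 1 1, c * M 1 2 + s * M 1 3, c * M 1 3 - s * M 1 2;
    c * M 2 0 + s * M 3 0, c * M 2 1 + s * M 3 1,
      c * (c * M 2 2 + s * M 2 3) + s * (c * M 3 2 + s * M 3 3),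
      c * (c * M 2 3 - s * M 2 2) + s * (c * M 3 3 - s * M 3 2);
    c * M 3 0 - s * M 2 0, c * M 3 1 - s * M 2 1,
      c * (c * M 3 2 + s * M 3 3) - s * (c * M 2 2 + s * M 2 3),
      c * (c * M 3 3 - s * M 3 2) - s * (c * M 2 3 - s * M 2 2)] := by
  ext i j
  simp only [ro, Matrix.mul_apply, Fin.sum_univ_four]
  fin_cases i <;> fin_cases j <;> simp [S4] <;> ring

lemma ro_add (M N : M4) : ro c s (M + N) = ro c s M + ro c s N := by
  simp only [ro, Matrix.mul_add, Matrix.add_mul]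
lemma ro_sub (M N : M4) : ro c s (M - N) = ro c s M - ro c s N := by
  simp only [ro, Matrix.mul_sub, Matrix.sub_mul]
lemma ro_smul (x : ℝ) (M : M4) : ro c s (x • M) = x • ro c s M := by
  simp only [ro, Matrix.mul_smul, Matrix.smul_mul]
lemma ro_zero : ro c s 0 = 0 := by simp [ro]

variable (h : c ^ 2 + s ^ 2 = 1)
include h

lemma ro_mul (M N : M4) : ro c s (M * N) = ro c s M * ro c s N := by
  have e : S4 c s * S4 c (-s) = 1 := by
    ext i j
    fin_cases i <;> fin_cases j <;> simp [S4, Matrix.mul_apply, Fin.sum_univ_four] <;> grind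
  calc ro c s (M * N) = S4 c (-s) * M * (S4 c s * S4 c (-s)) * N * S4 c s := by
        rw [e, Matrix.mul_one, ro, Matrix.mul_assoc _ M N]
    _ = _ := by simp only [ro, Matrix.mul_assoc]

variable (V : Ix → ℝ)

lemma gt0 : GT (rot c s 0 V) 0 = ro c s (GT V 0) := by
  rw [ro_apply, GT_0, GT_0]
  ext i j
  fin_cases i <;> fin_cases j <;> simp [rot] <;> grind

lemma gt1 : GT (rot c s 0 V) 1 = c • ro c s (GT V 1) + s • ro c s (GT V 2) := by
  rw [ro_apply, ro_apply, GT_1, GT_1, GT_2]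
  ext i j
  fin_cases i <;> fin_cases j <;> simp [rot] <;> grind

lemma gt2 : GT (rot c s 0 V) 2 = c • ro c s (GT V 2) - s • ro c s (GT V 1) := by
  rw [ro_apply, ro_apply, GT_2, GT_1, GT_2]
  ext i j
  fin_cases i <;> fin_cases j <;> simp [rot] <;> grind

lemma wt12 : WT (rot c s 0 V) 1 2 = ro c s (WT V 1 2) := by
  rw [ro_apply, WT_12, WT_12]
  ext i j
  fin_cases i <;> fin_cases j <;> simp [rot] <;> grind

lemma wt01 : WT (rot c s 0 V) 0 1 = c • ro c s (WT V 0 1) + s • ro c s (WT V 0 2) := by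
  rw [ro_apply, ro_apply, WT_01, WT_01, WT_02]
  ext i j
  fin_cases i <;> fin_cases j <;> simp [rot] <;> grind

lemma wt02 : WT (rot c s 0 V) 0 2 = c • ro c s (WT V 0 2) - s • ro c s (WT V 0 1) := by
  rw [ro_apply, ro_apply, WT_02, WT_01, WT_02]
  ext i j
  fin_cases i <;> fin_cases j <;> simp [rot] <;> grind

lemma gm : GM (rot c s 0 V) 0 = ro c s (GM V 0) ∧ GM (rot c s 0 V) 1 = ro c s (GM V 1) ∧
    GM (rot c s 0 V) 2 = c • ro c s (GM V 2) + s • ro c s (GM V 3) ∧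
    GM (rot c s 0 V) 3 = c • ro c s (GM V 3) - s • ro c s (GM V 2) := by
  simp only [ro_apply]
  refine ⟨?_, ?_, ?_, ?_⟩ <;> ext i j <;> fin_cases i <;> fin_cases j <;>
    simp [GM, Gam, rot] <;> grind

omit h in
/-- The brackets, explicitly. -/
lemma tt (V : Ix → ℝ) : (∀ m, TT V 0 1 m = ![V B1 - 2 * V p1, 2 * V q1 - V A1,
      V om - V omb - 2 * V X11 + 2 * V Y11, V r0 - 2 * V X21 + 2 * V Y21] m) ∧
    (∀ m, TT V 0 2 m = ![V B2 - 2 * V p2, 2 * V q2 - V A2,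
      -V r0 - 2 * V X12 + 2 * V Y12, V om - V omb - 2 * V X22 + 2 * V Y22] m) ∧
    ∀ m, TT V 1 2 m = ![V Y21 - V Y12, V X21 - V X12, -V r1 - V p2 - V q2,
      V p1 + V q1 - V r2] m := by
  refine ⟨?_, ?_, ?_⟩ <;> intro m <;> simp only [TT, GT_0, GT_1, GT_2, Fin.sum_univ_four] <;>
    fin_cases m <;> simp [tang] <;> ring

omit h in
lemma TT_swap (V : Ix → ℝ) (r q : Fin 3) (m : Fin 4) : TT V q r m = -TT V r q m := by
  simp only [TT]
  ring

omit h in
lemma cu_swap (U : Ix → ℝ) (d : Fin 3 → Ix → ℝ) (r q : Fin 3) : cu U d q r = -cu U d r q := by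
  simp only [cu, WT_swap U r q, TT_swap U r q, neg_smul, Finset.sum_neg_distrib]
  abel

omit h in
lemma cu_all {U : Ix → ℝ} {d : Fin 3 → Ix → ℝ} (h1 : cu U d 0 1 = 0) (h2 : cu U d 0 2 = 0)
    (h3 : cu U d 1 2 = 0) (r q : Fin 3) : cu U d r q = 0 := by
  have sf : ∀ r, cu U d r r = 0 := fun r => by
    have := cu_swap U d r r
    ext j k
    have := congrFun (congrFun this j) k
    simp only [Matrix.neg_apply] at this
    simp only [Matrix.zero_apply]
    linarith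
  have sw : ∀ r q, cu U d r q = 0 → cu U d q r = 0 := fun r q e => by rw [cu_swap, e, neg_zero]
  fin_cases r <;> fin_cases q
  exacts [sf 0, h1, h2, sw _ _ h1, sf 1, h3, sw _ _ h2, sw _ _ h3, sf 2]

omit h in
lemma GT_lin (x y : ℝ) (U W : Ix → ℝ) (r : Fin 3) :
    GT (x • U + y • W) r = x • GT U r + y • GT W r := by
  ext j k
  simp only [← gtL_apply, map_add, map_smul, Matrix.add_apply, Matrix.smul_apply]

/-- The derivatives along the rotated vectors. -/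
def dr (c s : ℝ) (d : Fin 3 → Ix → ℝ) : Fin 3 → Ix → ℝ :=
  ![rot c s 0 (d 0), c • rot c s 0 (d 1) + s • rot c s 0 (d 2),
    c • rot c s 0 (d 2) + (-s) • rot c s 0 (d 1)]

/-- The term with the brackets. -/
def BR (V : Ix → ℝ) (r q : Fin 3) : M4 := ∑ m, TT V r q m • GM V m

lemma tt_rot : (∀ m, TT (rot c s 0 V) 0 1 m = ![c * TT V 0 1 0 + s * TT V 0 2 0,
      c * TT V 0 1 1 + s * TT V 0 2 1,
      c * (c * TT V 0 1 2 + s * TT V 0 2 2) + s * (c * TT V 0 1 3 + s * TT V 0 2 3),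
      c * (c * TT V 0 1 3 + s * TT V 0 2 3) - s * (c * TT V 0 1 2 + s * TT V 0 2 2)] m) ∧
    (∀ m, TT (rot c s 0 V) 0 2 m = ![c * TT V 0 2 0 - s * TT V 0 1 0,
      c * TT V 0 2 1 - s * TT V 0 1 1,
      c * (c * TT V 0 2 2 - s * TT V 0 1 2) + s * (c * TT V 0 2 3 - s * TT V 0 1 3),
      c * (c * TT V 0 2 3 - s * TT V 0 1 3) - s * (c * TT V 0 2 2 - s * TT V 0 1 2)] m) ∧
    ∀ m, TT (rot c s 0 V) 1 2 m = ![TT V 1 2 0, TT V 1 2 1, c * TT V 1 2 2 + s * TT V 1 2 3,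
      c * TT V 1 2 3 - s * TT V 1 2 2] m := by
  simp only [(tt _).1, (tt _).2.1, (tt _).2.2]
  refine ⟨?_, ?_, ?_⟩ <;> intro m <;> fin_cases m <;> simp [rot] <;> grind

lemma br_rot : BR (rot c s 0 V) 0 1 = c • ro c s (BR V 0 1) + s • ro c s (BR V 0 2) ∧
    BR (rot c s 0 V) 0 2 = c • ro c s (BR V 0 2) - s • ro c s (BR V 0 1) ∧
    BR (rot c s 0 V) 1 2 = ro c s (BR V 1 2) := by
  obtain ⟨g0, g1, g2, g3⟩ := gm h V
  obtain ⟨t1, t2, t3⟩ := tt_rot h V
  simp only [BR, Fin.sum_univ_four, g0, g1, g2, g3, ro_add, ro_smul, t1, t2, t3, cons_val_zero,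
    cons_val_one, cons_val_two, cons_val_three, head_cons, tail_cons]
  generalize ro c s (GM V 0) = M0
  generalize ro c s (GM V 1) = M1
  generalize ro c s (GM V 2) = M2
  generalize ro c s (GM V 3) = M3
  refine ⟨?_, ?_, ?_⟩ <;> match_scalars <;> grind

lemma cu_rot (d : Fin 3 → Ix → ℝ) :
    cu (rot c s 0 V) (dr c s d) 0 1 = c • ro c s (cu V d 0 1) + s • ro c s (cu V d 0 2) ∧
    cu (rot c s 0 V) (dr c s d) 0 2 = c • ro c s (cu V d 0 2) - s • ro c s (cu V d 0 1) ∧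
    cu (rot c s 0 V) (dr c s d) 1 2 = ro c s (cu V d 1 2) := by
  obtain ⟨b1, b2, b3⟩ := br_rot h V
  have d0 : dr c s d 0 = rot c s 0 (d 0) := rfl
  have d1 : dr c s d 1 = c • rot c s 0 (d 1) + s • rot c s 0 (d 2) := rfl
  have d2 : dr c s d 2 = c • rot c s 0 (d 2) + (-s) • rot c s 0 (d 1) := rfl
  have e : ∀ V d r q, cu V d r q = GT (d r) q - GT (d q) r +
    (GT V r * GT V q - GT V q * GT V r) - BR V r q - WT V r q := fun _ _ _ _ => rfl
  simp only [e, d0, d1, d2, GT_lin, gt0 h, gt1 h, gt2 h, wt01 h, wt02 h, wt12 h, b1, b2, b3,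
    ro_add, ro_sub, ro_mul h, Matrix.add_mul, Matrix.mul_add, Matrix.sub_mul, Matrix.mul_sub,
    Matrix.smul_mul, Matrix.mul_smul]
  refine ⟨by module, by module, ?_⟩
  match_scalars <;> grind

end Vale.Agent.P354YJ
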