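import Vale.Agent.P354YJ.RotA

/-!
The algebra of the rotation of the angular frame by a variable angle.
-/

open Set Matrix

noncomputable section

namespace Vale.Agent.P354YJ

open Vale.Agent.P354C Vale.Agent.P354C.Ix Vale.Agent.P354J

/-- The shift of the rotation coefficients, and the infinitesimal rotation. -/
def sh (f : Fin 3 → ℝ) (U : Ix → ℝ) : Ix → ℝ
  | .r0 => U r0 + f 0
  | .r1 => U r1 + f 1
  | .r2 => U r2 + f 2
  | i => U i
def inf (V : Ix → ℝ) : Ix → ℝ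
  | .P11 => V P21
  | .P12 => V P22
  | .P21 => -V P11
  | .P22 => -V P12
  | .p1 => V p2
  | .p2 => -V p1
  | .q1 => V q2
  | .q2 => -V q1
  | .r1 => V r2
  | .r2 => -V r1
  | .A1 => V A2
  | .A2 => -V A1
  | .X11 => V X12 + V X21
  | .X12 => V X22 - V X11
  | .X21 => V X22 - V X11
  | .X22 => -(V X12 + V X21)
  | .B1 => V B2
  | .B2 => -V B1
  | .Y11 => V Y12 + V Y21
  | .Y12 => V Y22 - V Y11
  | .Y21 => V Y22 - V Y11
  | .Y22 => -(V Y12 + V Y21)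
  | .a1 => 2 * V a2
  | .a2 => -(2 * V a1)
  | .be1 => V be2
  | .be2 => -V be1
  | .bb1 => V bb2
  | .bb2 => -V bb1
  | .ab1 => 2 * V ab2
  | .ab2 => -(2 * V ab1)
  | _ => 0

lemma rot_sh (c s : ℝ) (f : Fin 3 → ℝ) (U : Ix → ℝ) : rot c s f U = rot c s 0 (sh f U) := by
  funext i
  cases i <;> simp [rot, sh]

variable (f : Fin 3 → ℝ) (U V : Ix → ℝ) (g : Fin 3 → Fin 3 → ℝ) (d : Fin 3 → Ix → ℝ)

lemma gt_sh (r : Fin 3) : GT (sh f U) r = GT U r + f r • J4 := by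
  fin_cases r
  · simp only [Fin.zero_eta, GT_0]
    ext i j
    fin_cases i <;> fin_cases j <;> simp [sh, J4] <;> ring
  · simp only [Fin.mk_one, GT_1]
    ext i j
    fin_cases i <;> fin_cases j <;> simp [sh, J4] <;> ring
  · simp only [Fin.reduceFinMk, GT_2]
    ext i j
    fin_cases i <;> fin_cases j <;> simp [sh, J4] <;> ring

lemma gt_inf : GT (inf V) 0 = GT V 0 * J4 - J4 * GT V 0 ∧
    GT (inf V) 1 = GT V 1 * J4 - J4 * GT V 1 + GT V 2 ∧
    GT (inf V) 2 = GT V 2 * J4 - J4 * GT V 2 - GT V 1 := by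
  simp only [GT_0, GT_1, GT_2]
  refine ⟨?_, ?_, ?_⟩ <;> ext i j <;> fin_cases i <;> fin_cases j <;> simp [inf, J4] <;> ring

lemma gm_sh : GM (sh f U) 0 = GM U 0 + f 0 • J4 ∧ GM (sh f U) 1 = GM U 1 ∧
    GM U 2 = GT U 1 ∧ GM U 3 = GT U 2 := by
  simp only [GT_1, GT_2]
  refine ⟨?_, ?_, ?_, ?_⟩ <;> ext i j <;> fin_cases i <;> fin_cases j <;>
    simp [GM, Gam, sh, J4] <;> ring

lemma wt_sh (r q : Fin 3) : WT (sh f U) r q = WT U r q := rfl

lemma tt_sh : (∀ m, TT (sh f U) 0 1 m = TT U 0 1 m + ![0, 0, 0, f 0] m) ∧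
    (∀ m, TT (sh f U) 0 2 m = TT U 0 2 m - ![0, 0, f 0, 0] m) ∧
    ∀ m, TT (sh f U) 1 2 m = TT U 1 2 m - ![0, 0, f 1, f 2] m := by
  simp only [(tt _).1, (tt _).2.1, (tt _).2.2]
  refine ⟨?_, ?_, ?_⟩ <;> intro m <;> fin_cases m <;> simp [sh] <;> ring

/-- The derivatives after the shift; g r q is the derivative of f q along the vector number r. -/
def ds (r : Fin 3) : Ix → ℝ := (1 : ℝ) • sh (g r) (d r) + f r • inf (sh f U)

/-- The form f is closed. -/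
def cm (r q : Fin 3) : ℝ :=
  g r q - g q r - (TT U r q 0 * f 0 + TT U r q 2 * f 1 + TT U r q 3 * f 2)

lemma cu_sh : cu (sh f U) (ds f U g d) 0 1 = cu U d 0 1 + cm f U g 0 1 • J4 ∧
    cu (sh f U) (ds f U g d) 0 2 = cu U d 0 2 + cm f U g 0 2 • J4 ∧
    cu (sh f U) (ds f U g d) 1 2 = cu U d 1 2 + cm f U g 1 2 • J4 := by
  obtain ⟨g0, g1, g2, g3⟩ := gm_sh f U
  obtain ⟨-, -, g2', g3'⟩ := gm_sh f (sh f U)
  obtain ⟨t1, t2, t3⟩ := tt_sh f U
  obtain ⟨i0, i1, i2⟩ := gt_inf (sh f U)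
  simp only [cu, cm, ds, GT_lin, i0, i1, i2, gt_sh, wt_sh, Fin.sum_univ_four, g0, g1, g2, g3, g2',
    g3', t1, t2, t3, cons_val_zero, cons_val_one, cons_val_two, cons_val_three, head_cons,
    tail_cons, Matrix.add_mul, Matrix.mul_add, Matrix.smul_mul, Matrix.mul_smul]
  refine ⟨by module, by module, by module⟩

/-- The first order constraints, explicitly. -/
structure C1 (U : Ix → ℝ) (d : Fin 3 → Ix → ℝ) : Prop where
  a0 : TT U 0 1 0 = 0
  a1 : TT U 0 1 1 = 0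
  a2 : TT U 0 1 2 * U P11 + TT U 0 1 3 * U P21 = d 0 P11 - d 1 Ix.b1
  a3 : TT U 0 1 2 * U P12 + TT U 0 1 3 * U P22 = d 0 P12 - d 1 Ix.b2
  b0 : TT U 0 2 0 = 0
  b1 : TT U 0 2 1 = 0
  b2 : TT U 0 2 2 * U P11 + TT U 0 2 3 * U P21 = d 0 P21 - d 2 Ix.b1
  b3 : TT U 0 2 2 * U P12 + TT U 0 2 3 * U P22 = d 0 P22 - d 2 Ix.b2
  c0 : TT U 1 2 0 = 0
  c1 : TT U 1 2 1 = 0
  c2 : TT U 1 2 2 * U P11 + TT U 1 2 3 * U P21 = d 1 P21 - d 2 P11
  c3 : TT U 1 2 2 * U P12 + TT U 1 2 3 * U P22 = d 1 P22 - d 2 P12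
  o0 : d 0 O = U O * (U om - U omb)
  o1 : d 1 O = U O * (U p1 + U q1)
  o2 : d 2 O = U O * (U p2 + U q2)

variable {f U V g d}

lemma c1_of (h : Con1 U d) : C1 U d := by
  have a0 := h.1 0 1 0
  have a1 := h.1 0 1 1
  have a2 := h.1 0 1 2
  have a3 := h.1 0 1 3
  have b0 := h.1 0 2 0
  have b1 := h.1 0 2 1
  have b2 := h.1 0 2 2
  have b3 := h.1 0 2 3
  have c0 := h.1 1 2 0
  have c1 := h.1 1 2 1
  have c2 := h.1 1 2 2
  have c3 := h.1 1 2 3
  simp [E, up, cT, Eu', Fin.sum_univ_four] at a0 a1 a2 a3 b0 b1 b2 b3 c0 c1 c2 c3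
  have a : TT U 0 1 0 = 0 := by linarith
  have b : TT U 0 2 0 = 0 := by linarith
  have c : TT U 1 2 0 = 0 := by linarith
  rw [a] at a2 a3
  rw [b] at b2 b3
  rw [c] at c2 c3
  exact ⟨a, by linarith, by linarith, by linarith, b, by linarith, by linarith, by linarith, c,
    by linarith, by linarith, by linarith, h.2 0, h.2 1, h.2 2⟩

lemma C1.con1 (h : C1 U d) : Con1 U d := by
  refine ⟨?_, fun s => by fin_cases s; exacts [h.o0, h.o1, h.o2]⟩
  let P : Fin 3 → Fin 3 → Prop := fun s t => ∀ μ, ∑ m, TT U s t m * E U m μ =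
    up (fun j => cT t * Eu' (d s) t j - cT s * Eu' (d t) s j) μ
  have sw : ∀ s t, P s t → P t s := fun s t k μ => by
    have := k μ
    simp only [TT_swap U s t, neg_mul, Finset.sum_neg_distrib, this]
    fin_cases μ <;> simp [up]
  have sf : ∀ s, P s s := fun s μ => by
    have : ∀ m, TT U s s m = 0 := fun m => sub_self _
    fin_cases μ <;> simp [this, up]
  have p1 : P 0 1 := fun μ => by
    fin_cases μ <;> simp [E, up, cT, Eu', Fin.sum_univ_four, h.a0, h.a1] <;>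
      linarith [h.a2, h.a3]
  have p2 : P 0 2 := fun μ => by
    fin_cases μ <;> simp [E, up, cT, Eu', Fin.sum_univ_four, h.b0, h.b1] <;>
      linarith [h.b2, h.b3]
  have p3 : P 1 2 := fun μ => by
    fin_cases μ <;> simp [E, up, cT, Eu', Fin.sum_univ_four, h.c0, h.c1] <;>
      linarith [h.c2, h.c3]
  intro s t
  fin_cases s <;> fin_cases t
  exacts [sf 0, p1, p2, sw _ _ p1, sf 1, p3, sw _ _ p2, sw _ _ p3, sf 2]

lemma C1.sh (h : C1 U d) (f : Fin 3 → ℝ) (g : Fin 3 → Fin 3 → ℝ) : C1 (sh f U) (ds f U g d) := by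
  obtain ⟨t1, t2, t3⟩ := tt_sh f U
  obtain ⟨a0, a1, a2, a3, b0, b1, b2, b3, c0, c1, c2, c3, o0, o1, o2⟩ := h
  constructor <;> simp [t1, t2, t3, ds, P354YJ.sh, inf] <;> linarith

lemma C1.rot (h : C1 U d) {c s : ℝ} (k : c ^ 2 + s ^ 2 = 1) : C1 (rot c s 0 U) (dr c s d) := by
  obtain ⟨t1, t2, t3⟩ := tt_rot k U
  obtain ⟨a0, a1, a2, a3, b0, b1, b2, b3, c0, c1, c2, c3, o0, o1, o2⟩ := h
  constructor <;> simp [t1, t2, t3, dr, P354YJ.rot] <;> grind

/-- The constraints in the rotated frame. -/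
theorem constr_rot {c s : ℝ} (k : c ^ 2 + s ^ 2 = 1) {dU dV : Fin 4 → Ix → ℝ} (h : Constr U dU)
    (hg : ∀ r q, cm f U g r q = 0) (hd : DT dV = dr c s (ds f U g (DT dU))) :
    Constr (rot c s f U) dV := by
  rw [constr_iff] at h ⊢
  have z : ∀ r q, cu U (DT dU) r q = 0 := fun r q => by
    ext j l
    rw [← curT_cu, h.2]
    rfl
  obtain ⟨s1, s2, s3⟩ := cu_sh f U g (DT dU)
  obtain ⟨r1, r2, r3⟩ := cu_rot k (sh f U) (ds f U g (DT dU))
  simp only [z, hg, zero_smul, add_zero] at s1 s2 s3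
  simp only [s1, s2, s3, ro_zero, smul_zero, add_zero, sub_zero] at r1 r2 r3
  rw [hd, rot_sh]
  refine ⟨(((c1_of h.1).sh f g).rot k).con1, fun r q j l => ?_⟩
  rw [curT_cu, hd, cu_all r1 r2 r3]
  rfl

lemma detP_rot {c s : ℝ} (k : c ^ 2 + s ^ 2 = 1) (f : Fin 3 → ℝ) (U : Ix → ℝ) :
    detP (rot c s f U) = detP U := by
  simp only [detP, rot]
  grind

lemma th_rot {c s : ℝ} (k : c ^ 2 + s ^ 2 = 1) (f : Fin 3 → ℝ) (U : Ix → ℝ) (a : P354n.R4) :
    th (rot c s f U) a = ![th U a 0, th U a 1, c * th U a 2 + s * th U a 3,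
      c * th U a 3 - s * th U a 2] := by
  funext j
  simp only [th, detP_rot k]
  fin_cases j <;> simp [rot] <;> ring

/-- The induced forms do not change. -/
theorem ind_rot {c s : ℝ} (k : c ^ 2 + s ^ 2 = 1) (f : Fin 3 → ℝ) (U : Ix → ℝ)
    (a b : P354H.X3) : hf (rot c s f U) a b = hf U a b ∧ Kf (rot c s f U) a b = Kf U a b := by
  simp only [hf, Kf, th_rot k, eta, Fin.sum_univ_four]
  generalize th U (0, a) = x
  generalize th U (0, b) = y
  constructor <;> simp [rot, Gam] <;> left <;> grind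

end Vale.Agent.P354YJ
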